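import Vale.Agent.P165FreeProd.Cayley

/-!
# Balls of a Cayley graph
-/

namespace Vale.Agent.P165FreeProd.Ker

open Vale.Agent.P165

variable {Γ : Type*} [Group Γ] [DecidableEq Γ] (S : Finset Γ)

/-- The ball of radius `L` around the unit. -/
def Ball (L : ℕ) : Finset Γ := reach (cnb S) L 1

theorem mem_Ball_succ {L : ℕ} {x : Γ} :
    x ∈ Ball S (L + 1) ↔ x ∈ Ball S L ∨ ∃ y ∈ Ball S L, ∃ s ∈ gens S, y * s = x := by
  simp only [Ball, reach, nbhd, Finset.mem_union, Finset.mem_biUnion, cnb, Finset.mem_image]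

theorem one_mem_Ball (L : ℕ) : (1 : Γ) ∈ Ball S L :=
  reach_mono (cnb S) 1 (Nat.zero_le L) (Finset.mem_singleton_self 1)

theorem Ball_mono {a b : ℕ} (h : a ≤ b) : Ball S a ⊆ Ball S b := reach_mono (cnb S) 1 h

theorem mul_mem_Ball {a : ℕ} {x : Γ} (hx : x ∈ Ball S a) :
    ∀ {b : ℕ} {y : Γ}, y ∈ Ball S b → x * y ∈ Ball S (a + b)
  | 0, y, hy => by
    rw [Ball, reach, Finset.mem_singleton] at hy
    simpa [hy] using hx
  | b + 1, y, hy => by
    rw [← add_assoc, mem_Ball_succ]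
    rcases (mem_Ball_succ S).1 hy with h | ⟨z, hz, s, hs, rfl⟩
    · exact Or.inl (mul_mem_Ball hx h)
    · exact Or.inr ⟨x * z, mul_mem_Ball hx hz, s, hs, mul_assoc _ _ _⟩

theorem inv_mem_gens {s : Γ} (hs : s ∈ gens S) : s⁻¹ ∈ gens S := by
  simp only [gens, Finset.mem_erase, Finset.mem_union, Finset.mem_image] at hs ⊢
  refine ⟨by simpa using hs.1, ?_⟩
  rcases hs.2 with h | ⟨t, ht, rfl⟩
  · exact Or.inr ⟨s, h, rfl⟩
  · exact Or.inl (by simpa using ht)

theorem mem_Ball_one {s : Γ} (hs : s ∈ gens S) : s ∈ Ball S 1 :=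
  (mem_Ball_succ S).2 (Or.inr ⟨1, one_mem_Ball S 0, s, hs, one_mul s⟩)

theorem inv_mem_Ball : ∀ {a : ℕ} {x : Γ}, x ∈ Ball S a → x⁻¹ ∈ Ball S a
  | 0, x, hx => by
    rw [Ball, reach, Finset.mem_singleton] at hx
    simp [hx, one_mem_Ball]
  | a + 1, x, hx => by
    rcases (mem_Ball_succ S).1 hx with h | ⟨z, hz, s, hs, rfl⟩
    · exact Ball_mono S (Nat.le_succ a) (inv_mem_Ball h)
    · rw [mul_inv_rev, add_comm a 1]
      exact mul_mem_Ball S (mem_Ball_one S (inv_mem_gens S hs)) (inv_mem_Ball hz)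

theorem card_Ball_le : ∀ L, (Ball S L).card ≤ ((gens S).card + 1) ^ L
  | 0 => by simp [Ball, reach]
  | L + 1 => by
    have h : Ball S (L + 1) ⊆ Ball S L ∪ (Ball S L).biUnion (cnb S) := fun x hx => by
      rcases (mem_Ball_succ S).1 hx with h | ⟨z, hz, s, hs, rfl⟩
      · exact Finset.mem_union_left _ h
      · exact Finset.mem_union_right _
          (Finset.mem_biUnion.2 ⟨z, hz, Finset.mem_image_of_mem _ hs⟩)
    refine (Finset.card_le_card h).trans ((Finset.card_union_le _ _).trans ?_)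
    have h2 : ((Ball S L).biUnion (cnb S)).card ≤ (Ball S L).card * (gens S).card := by
      refine Finset.card_biUnion_le.trans ?_
      refine (Finset.sum_le_card_nsmul _ _ (gens S).card fun z _ => Finset.card_image_le).trans ?_
      rw [smul_eq_mul]
    calc (Ball S L).card + ((Ball S L).biUnion (cnb S)).card
        ≤ (Ball S L).card * ((gens S).card + 1) := by rw [Nat.mul_succ]; omega
      _ ≤ _ := by rw [pow_succ]; exact Nat.mul_le_mul_right _ (card_Ball_le L)

variable {S} in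
theorem exists_mem_Ball (hS : Subgroup.closure (S : Set Γ) = ⊤) (x : Γ) : ∃ L, x ∈ Ball S L := by
  obtain ⟨w⟩ := (connected_cay S hS).preconnected 1 x
  exact ⟨w.length, mem_reach_of_walk (lf_cay S) w⟩

variable {S} in
theorem exists_radius (hS : Subgroup.closure (S : Set Γ) = ⊤) (A : Finset Γ) :
    ∃ L, A ⊆ Ball S L := by
  choose f hf using fun x : Γ => exists_mem_Ball hS x
  exact ⟨A.sup f, fun x hx => Ball_mono S (Finset.le_sup hx) (hf x)⟩

end Vale.Agent.P165FreeProd.Ker
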