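import Vale.Agent.P165FreeProd.Ker.Fam

/-!
# Chains joined by rare bridges: the union bound is sharp
-/

namespace Vale.Agent.P165FreeProd.Ker

open Vale.Agent.P165

section
variable {α : Type*} [DecidableEq α] {p : ℝ}

open Classical in
/-- Events on disjoint sets of edges are independent. -/
theorem Pr_inter_prod {ι : Type*} (I : Finset ι) (F : ι → Finset α) (B : ι → Finset α → Prop) :
    ∀ E : Finset α, (∀ i ∈ I, F i ⊆ E) → (∀ i ∈ I, ∀ j ∈ I, i ≠ j → Disjoint (F i) (F j)) →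
      Pr E p (fun s => ∀ i ∈ I, B i (s ∩ F i)) = ∏ i ∈ I, Pr (F i) p (B i) := by
  induction I using Finset.induction with
  | empty =>
    intro E _ _
    rw [Finset.prod_empty, ← Pr_true (E := E) (p := p)]
    exact Pr_congr fun s _ => by simp
  | @insert a I ha ih =>
    intro E hsub hdis
    have hFa : F a ⊆ E := hsub a (Finset.mem_insert_self _ _)
    have hrest : ∀ i ∈ I, F i ⊆ E \ F a := fun i hi e he => Finset.mem_sdiff.2
      ⟨hsub i (Finset.mem_insert_of_mem hi) he, fun h => Finset.disjoint_left.1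
        (hdis a (Finset.mem_insert_self _ _) i (Finset.mem_insert_of_mem hi)
          (fun e => ha (e ▸ hi))) h he⟩
    have hu := Pr_union (p := p) (E \ F a) (F a) Finset.disjoint_sdiff
      (fun s => B a (s ∩ F a)) (fun s => ∀ i ∈ I, B i (s ∩ F i))
      (fun s _ => by rw [Finset.inter_assoc, Finset.inter_self]) (fun s _ => by
        refine forall₂_congr fun i hi => ?_
        rw [Finset.inter_assoc, Finset.inter_eq_right.2 (hrest i hi)])
    rw [Finset.union_sdiff_of_subset hFa] at hu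
    rw [Finset.prod_insert ha, ← ih (E \ F a) hrest (fun i hi j hj => hdis i
      (Finset.mem_insert_of_mem hi) j (Finset.mem_insert_of_mem hj)),
      ← Pr_restrict (E := F a) (subset_refl _) (B a)]
    rw [← hu]
    exact Pr_congr fun s _ => by simp [Finset.forall_mem_insert]

open Classical in
/-- Increasing events together are at least as likely as if they were independent. -/
theorem harris_prod (h0 : 0 ≤ p) (h1 : p ≤ 1) {ι : Type*} (E : Finset α) (I : Finset ι)
    (A : ι → Finset α → Prop) (hA : ∀ i, Monotone (A i)) :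
    ∏ i ∈ I, Pr E p (A i) ≤ Pr E p (fun s => ∀ i ∈ I, A i s) := by
  induction I using Finset.induction with
  | empty =>
    rw [Finset.prod_empty, ← Pr_true (E := E) (p := p)]
    exact Pr_mono h0 h1 fun s _ _ => by simp
  | @insert a I ha ih =>
    rw [Finset.prod_insert ha]
    refine ((mul_le_mul_of_nonneg_left ih (Pr_nonneg h0 h1 _)).trans
      (harris h0 h1 E (hA a) fun s t h hs i hi => hA i h (hs i hi))).trans ?_
    exact Pr_mono h0 h1 fun s _ hs => by simpa [Finset.forall_mem_insert] using hs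

open Classical in
/-- The first two terms of inclusion and exclusion. -/
theorem sum_sub_pairs_le (h0 : 0 ≤ p) (h1 : p ≤ 1) {ι : Type*} [DecidableEq ι] (E : Finset α) (T : Finset ι)
    (A : ι → Finset α → Prop) :
    ∑ t ∈ T, Pr E p (A t) - ∑ t ∈ T, ∑ t' ∈ T.erase t, Pr E p (fun s => A t s ∧ A t' s) ≤
      Pr E p (fun s => ∃ t ∈ T, A t s) := by
  simp only [Pr]
  rw [Finset.sum_comm (s := T), Finset.sum_congr rfl fun t (_ : t ∈ T) => Finset.sum_comm,
    Finset.sum_comm (s := T), ← Finset.sum_sub_distrib]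
  refine Finset.sum_le_sum fun s _ => ?_
  set w := p ^ s.card * (1 - p) ^ (E.card - s.card)
  have hw : 0 ≤ w := mul_nonneg (pow_nonneg h0 _) (pow_nonneg (sub_nonneg.2 h1) _)
  set Ts := T.filter fun t => A t s
  have e1 : (∑ t ∈ T, if A t s then w else 0) = (Ts.card : ℝ) * w := by
    rw [← Finset.sum_filter, Finset.sum_const, nsmul_eq_mul]
  have e2 : (∑ t ∈ T, ∑ t' ∈ T.erase t,
      @ite ℝ (A t s ∧ A t' s) (Classical.propDecidable _) w 0) =
      (Ts.card : ℝ) * (((Ts.card : ℝ) - 1) * w) := by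
    rw [show (Ts.card : ℝ) * (((Ts.card : ℝ) - 1) * w) = ∑ _t ∈ Ts, ((Ts.card : ℝ) - 1) * w by
      rw [Finset.sum_const, nsmul_eq_mul], Finset.sum_filter]
    refine Finset.sum_congr rfl fun t ht => ?_
    by_cases hA : A t s
    · simp only [hA, true_and, if_true]
      rw [← Finset.sum_filter, Finset.sum_const, nsmul_eq_mul, Finset.filter_erase,
        Finset.cast_card_erase_of_mem (Finset.mem_filter.2 ⟨ht, hA⟩)]
    · simp [hA]
  rw [e1, e2]
  split_ifs with h
  · nlinarith [mul_nonneg hw (sq_nonneg ((Ts.card : ℝ) - 1))]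
  · have : Ts = ∅ := Finset.filter_eq_empty_iff.2 fun t ht hA => h ⟨t, ht, hA⟩
    simp [this]

end

variable {Γ : Type*} [Group Γ] [DecidableEq Γ] {H : Subgroup Γ} (S : Finset Γ)

/-- The pieces of a chain. -/
def piece {J : ℕ} (u : Fin J → List H) (sp : H) (t : Fin J → H) (l : Fin J) : H :=
  t l * (u l).prod * sp

/-- The start of level `l`. -/
def pre {J : ℕ} (u : Fin J → List H) (sp : H) (t : Fin J → H) (l : ℕ) : H :=
  ((List.ofFn (piece u sp t)).take l).prod

omit [DecidableEq Γ] in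
theorem pre_succ {J : ℕ} (u : Fin J → List H) (sp : H) (t : Fin J → H) (l : Fin J) :
    pre u sp t (l.val + 1) = pre u sp t l.val * piece u sp t l := by
  rw [pre, pre, List.take_succ_eq_append_getElem (by simp), List.prod_append]
  simp

/-- The bridge region of a level. -/
def reg {J : ℕ} (R0 : ℕ) (u : Fin J → List H) (sp : H) (t : Fin J → H) (l : Fin J) : Finset Γ :=
  (regL S R0 (u l)).image (((pre u sp t l.val * t l : H) : Γ) * ·)

open Classical in
/-- Chains with rare bridges reach their endpoints as often as the first moment says. -/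
theorem chain_le {p : ℝ} (h0 : 0 ≤ p) (h1 : p ≤ 1) (hS : Subgroup.closure (S : Set Γ) = ⊤) {J : ℕ}
    (P : Fin J → Finset H) (u : Fin J → List H) (sp : H) (R0 Lk Ls : ℕ) (w : H → ℝ)
    (hw0 : ∀ k, 0 ≤ w k) (hw : ∀ l, ∀ k ∈ P l, w k ≤ tauS (cnb S) (Ball S Lk) p 1 (k : Γ))
    {σ : ℝ} (hσ0 : 0 ≤ σ) (hσ : σ ≤ tauS (cnb S) (Ball S Ls) p 1 (sp : Γ))
    (hself : ∀ t ∈ Fintype.piFinset P, ∀ l l', l ≠ l' →
      Disjoint (reg S R0 u sp t l) (reg S R0 u sp t l'))
    (hdiff : ∀ t ∈ Fintype.piFinset P, ∀ t' ∈ Fintype.piFinset P, t ≠ t' →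
      ∃ l0, ∀ l, Disjoint (reg S R0 u sp t l) (reg S R0 u sp t' l0))
    {β : ℝ} (hβ0 : 0 ≤ β) (hβ : ∀ l, tauS (cnb S) (regL S R0 (u l)) p 1 ((u l).prod : H) ≤ β)
    (hrare : ((∏ l, (P l).card : ℕ) : ℝ) ^ 2 * β ≤ σ ^ J * (∏ l, ∑ k ∈ P l, w k) / 2) :
    ∃ L, (∏ l, tauS (cnb S) (regL S R0 (u l)) p 1 ((u l).prod : H)) *
        (σ ^ J * (∏ l, ∑ k ∈ P l, w k) / 2) ≤
      ∑ y ∈ (Fintype.piFinset P).image (fun t => pre u sp t J),
        tauS (cnb S) (Ball S L) p 1 (y : Γ) := by
  set T := Fintype.piFinset P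
  set β' := fun l => tauS (cnb S) (regL S R0 (u l)) p 1 ((u l).prod : H)
  set a : (Fin J → H) → Fin J → Γ := fun t l => (pre u sp t l.val : Γ)
  set z : (Fin J → H) → Fin J → Γ := fun t l => ((pre u sp t l.val * t l : H) : Γ)
  set e : (Fin J → H) → Fin J → Γ := fun t l => ((pre u sp t l.val * t l * (u l).prod : H) : Γ)
  obtain ⟨L, hL⟩ := exists_radius hS (T.biUnion fun t => (Finset.univ : Finset (Fin J)).biUnion
    fun l => (Ball S Lk).image (a t l * ·) ∪ reg S R0 u sp t l ∪ (Ball S Ls).image (e t l * ·))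
  set E := edgesIn (cnb S) (Ball S L)
  set F : (Fin J → H) → Fin J → Finset (Sym2 Γ) := fun t l => edgesIn (cnb S) (reg S R0 u sp t l)
  set B : (Fin J → H) → Fin J → Finset (Sym2 Γ) → Prop := fun t l => Conn (z t l) (e t l)
  set A : (Fin J → H) → Finset (Sym2 Γ) → Prop := fun t s => ∀ l ∈ (Finset.univ : Finset (Fin J)),
    (Conn (a t l) (z t l) s ∧ B t l (s ∩ F t l)) ∧
      Conn (e t l) (pre u sp t (l.val + 1) : Γ) s
  have hin : ∀ t ∈ T, ∀ l, edgesIn (cnb S) ((Ball S Lk).image (a t l * ·)) ⊆ E ∧ F t l ⊆ E ∧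
      edgesIn (cnb S) ((Ball S Ls).image (e t l * ·)) ⊆ E := by
    intro t ht l
    have h : ∀ X, X ⊆ (Ball S Lk).image (a t l * ·) ∪ reg S R0 u sp t l ∪
        (Ball S Ls).image (e t l * ·) → edgesIn (cnb S) X ⊆ E := fun X hX =>
      edgesIn_mono (lf_cay S) fun x hx => hL (Finset.mem_biUnion.2 ⟨t, ht,
        Finset.mem_biUnion.2 ⟨l, Finset.mem_univ l, hX hx⟩⟩)
    exact ⟨h _ (Finset.subset_union_left.trans Finset.subset_union_left),
      h _ (Finset.subset_union_right.trans Finset.subset_union_left), h _ Finset.subset_union_right⟩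
  have hB : ∀ t l, Pr (F t l) p (B t l) = β' l := by
    intro t l
    have h := tauS_shift S (z t l) (regL S R0 (u l)) p 1 (((u l).prod : H) : Γ)
    rw [mul_one] at h
    simp only [F, reg, B, e, Subgroup.coe_mul]
    exact h
  have hshift : ∀ (g x : Γ) (R : ℕ), edgesIn (cnb S) ((Ball S R).image (g * ·)) ⊆ E →
      tauS (cnb S) (Ball S R) p 1 x ≤ Pr E p (Conn g (g * x)) := fun g x R hsub => by
    refine le_trans (le_of_eq ?_) (Pr_le_of_subset hsub h0 h1 (conn_mono g (g * x)))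
    have h := tauS_shift S g (Ball S R) p 1 x
    rw [mul_one] at h
    exact h.symm
  have hmonoB : ∀ t l, Monotone fun s => B t l (s ∩ F t l) := fun t l s s' h hs =>
    conn_mono _ _ (Finset.inter_subset_inter_right h) hs
  have hfirst : ∀ t ∈ T, (∏ l, β' l) * (σ ^ J * ∏ l, w (t l)) ≤ Pr E p (A t) := by
    intro t ht
    refine le_trans ?_ (harris_prod h0 h1 E _ _ fun l s s' h hs =>
      ⟨⟨conn_mono _ _ h hs.1.1, hmonoB t l h hs.1.2⟩, conn_mono _ _ h hs.2⟩)
    rw [show σ ^ J = ∏ _l : Fin J, σ by simp, ← Finset.prod_mul_distrib, ← Finset.prod_mul_distrib]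
    refine Finset.prod_le_prod (fun l _ => mul_nonneg (tauS_nonneg h0 h1 _ _ _)
      (mul_nonneg hσ0 (hw0 _))) fun l _ => ?_
    obtain ⟨ha, hf, he⟩ := hin t ht l
    have e1 : z t l = a t l * (t l : Γ) := by simp [z, a]
    have e2 : (pre u sp t (l.val + 1) : Γ) = e t l * (sp : Γ) := by
      simp [pre_succ, piece, e, mul_assoc]
    calc β' l * (σ * w (t l)) = (w (t l) * β' l) * σ := by ring
      _ ≤ (Pr E p (Conn (a t l) (z t l)) * Pr E p (fun s => B t l (s ∩ F t l))) *
          Pr E p (Conn (e t l) (pre u sp t (l.val + 1) : Γ)) := by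
        refine mul_le_mul (mul_le_mul ((hw l _ (Fintype.mem_piFinset.1 ht l)).trans ?_)
          (le_of_eq ?_) (tauS_nonneg h0 h1 _ _ _) (Pr_nonneg h0 h1 _)) (hσ.trans ?_) hσ0
          (mul_nonneg (Pr_nonneg h0 h1 _) (Pr_nonneg h0 h1 _))
        · rw [e1]; exact hshift _ _ _ ha
        · rw [Pr_restrict hf, hB]
        · rw [e2]; exact hshift _ _ _ he
      _ ≤ _ := (mul_le_mul_of_nonneg_right (harris h0 h1 E (conn_mono _ _) (hmonoB t l))
          (Pr_nonneg h0 h1 _)).trans (harris h0 h1 E (fun s s' h hs =>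
            ⟨conn_mono _ _ h hs.1, hmonoB t l h hs.2⟩) (conn_mono _ _))
  have hdF : ∀ t l t' l', Disjoint (reg S R0 u sp t l) (reg S R0 u sp t' l') →
      Disjoint (F t l) (F t' l') := by
    intro t l t' l' h
    rw [Finset.disjoint_left]
    intro x hx hx'
    induction x using Sym2.ind with
    | _ v v' =>
      exact Finset.disjoint_left.1 h ((mem_edgesIn (lf_cay S)).1 hx).2.1
        ((mem_edgesIn (lf_cay S)).1 hx').2.1
  have hpair : ∀ t ∈ T, ∀ t' ∈ T.erase t,
      Pr E p (fun s => A t s ∧ A t' s) ≤ (∏ l, β' l) * β := by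
    intro t ht t' ht'
    obtain ⟨hne, ht'T⟩ := Finset.mem_erase.1 ht'
    obtain ⟨l0, hl0⟩ := hdiff t ht t' ht'T hne.symm
    set F' : Option (Fin J) → Finset (Sym2 Γ) := fun o => o.elim (F t' l0) (F t)
    set B' : Option (Fin J) → Finset (Sym2 Γ) → Prop := fun o => o.elim (B t' l0) (B t)
    refine (Pr_mono h0 h1 (B := fun s => ∀ o ∈ (Finset.univ : Finset (Option (Fin J))),
      B' o (s ∩ F' o)) fun s _ hs => ?_).trans ?_
    · rintro (_ | l) -
      · exact (hs.2 l0 (Finset.mem_univ _)).1.2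
      · exact (hs.1 l (Finset.mem_univ _)).1.2
    · rw [Pr_inter_prod _ F' B' E (fun o _ => by
        rcases o with _ | l
        exacts [(hin t' ht'T l0).2.1, (hin t ht l).2.1]) fun o _ o' _ hoo => by
        rcases o with _ | l <;> rcases o' with _ | l'
        · exact absurd rfl hoo
        · exact (hdF _ _ _ _ (hl0 l')).symm
        · exact hdF _ _ _ _ (hl0 l)
        · exact hdF _ _ _ _ (hself t ht l l' fun e => hoo (e ▸ rfl))]
      rw [Fintype.prod_option]
      simp only [F', B', Option.elim_none, Option.elim_some, hB]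
      rw [mul_comm]
      exact mul_le_mul_of_nonneg_left (hβ l0)
        (Finset.prod_nonneg fun l _ => tauS_nonneg h0 h1 _ _ _)
  have hunion : Pr E p (fun s => ∃ t ∈ T, A t s) ≤
      ∑ y ∈ T.image (fun t => pre u sp t J), tauS (cnb S) (Ball S L) p 1 (y : Γ) := by
    refine (Pr_mono h0 h1 (B := fun s => ∃ y ∈ T.image (fun t => pre u sp t J),
      Conn 1 (y : Γ) s) ?_).trans (Pr_exists h0 h1 _ _)
    rintro s - ⟨t, ht, hA⟩
    refine ⟨_, Finset.mem_image_of_mem _ ht, ?_⟩
    have h : ∀ l ≤ J, Conn 1 (pre u sp t l : Γ) s := by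
      intro l
      induction l with
      | zero => exact fun _ => by simp only [pre, List.take_zero, List.prod_nil, OneMemClass.coe_one]; exact SimpleGraph.Reachable.refl _
      | succ l ih =>
        intro hl
        obtain ⟨⟨c1, c2⟩, c3⟩ := hA ⟨l, hl⟩ (Finset.mem_univ _)
        exact (((ih (Nat.le_of_lt hl)).trans c1).trans
          (conn_mono _ _ Finset.inter_subset_left c2)).trans c3
    exact h J le_rfl
  refine ⟨L, le_trans ?_ ((sum_sub_pairs_le h0 h1 E T A).trans hunion)⟩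
  have hM : ∑ t ∈ T, (∏ l, β' l) * (σ ^ J * ∏ l, w (t l)) =
      (∏ l, β' l) * (σ ^ J * ∏ l, ∑ k ∈ P l, w k) := by
    rw [← Finset.mul_sum, ← Finset.mul_sum, Finset.prod_univ_sum]
  have h2 : ∑ t ∈ T, ∑ t' ∈ T.erase t, Pr E p (fun s => A t s ∧ A t' s) ≤
      (∏ l, β' l) * (((∏ l, (P l).card : ℕ) : ℝ) ^ 2 * β) := by
    have hcard : T.card = ∏ l, (P l).card := Fintype.card_piFinset P
    refine (Finset.sum_le_sum fun t ht => (Finset.sum_le_card_nsmul _ _ _ (hpair t ht))).trans ?_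
    simp only [nsmul_eq_mul]
    refine (Finset.sum_le_card_nsmul _ _ ((T.card : ℝ) * ((∏ l, β' l) * β)) fun t _ => ?_).trans ?_
    · refine mul_le_mul_of_nonneg_right (Nat.cast_le.2 (Finset.card_le_card (Finset.erase_subset _ _)))
        (mul_nonneg (Finset.prod_nonneg fun l _ => tauS_nonneg h0 h1 _ _ _) hβ0)
    · rw [nsmul_eq_mul, hcard]
      exact le_of_eq (by ring)
  have h3 := Finset.sum_le_sum (s := T) hfirst
  rw [hM] at h3
  have hpos : 0 ≤ ∏ l, β' l := Finset.prod_nonneg fun l _ => tauS_nonneg h0 h1 _ _ _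
  have h4 : (∏ l, β' l) * (((∏ l, (P l).card : ℕ) : ℝ) ^ 2 * β) ≤
      (∏ l, β' l) * (σ ^ J * (∏ l, ∑ k ∈ P l, w k) / 2) :=
    mul_le_mul_of_nonneg_left hrare hpos
  change (∏ l, β' l) * _ ≤ _
  calc (∏ l, β' l) * (σ ^ J * (∏ l, ∑ k ∈ P l, w k) / 2)
      = (∏ l, β' l) * (σ ^ J * ∏ l, ∑ k ∈ P l, w k) -
          (∏ l, β' l) * (σ ^ J * (∏ l, ∑ k ∈ P l, w k) / 2) := by ring
    _ ≤ _ := sub_le_sub h3 (h2.trans h4)


end Vale.Agent.P165FreeProd.Ker
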