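import Vale.Agent.P165FreeProd.Ker.Chain

/-!
# Chains of atoms and light compounds give a new family
-/

namespace Vale.Agent.P165FreeProd.Ker

open Vale.Agent.P165

variable {d : ℕ} {n : Fin d → ℕ} {Γ : Type*} [Group Γ] [DecidableEq Γ] {H : Subgroup Γ}
  {π : H →* Prd n} {S : Finset Γ} {p : ℝ}

/-- The image of a start of a level. -/
theorem map_pre {J : ℕ} (u : Fin J → List H) (sp : H) (t : Fin J → H) (l : ℕ) :
    π (pre u sp t l) = ((List.ofFn fun i => π (piece u sp t i)).take l).prod := by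
  rw [pre, map_list_prod, List.map_take, List.map_ofFn]
  rfl

omit [DecidableEq Γ] in
theorem isPos_piece {J : ℕ} (u : Fin J → List H) (sp : H) (t : Fin J → H)
    (ht : ∀ l, IsPos (π (t l))) (hu : ∀ l, u l ≠ []) (huv : ∀ l, ∀ v ∈ u l, IsPos (π v))
    (hsp : IsPos (π sp)) (l : Fin J) : IsPos (π (piece u sp t l)) := by
  simp only [piece, _root_.map_mul, map_list_prod]
  exact isPos_mul (isPos_mul (ht l) (isPos_prod _ (by simpa using hu l) fun x hx => by
    obtain ⟨v, hv, rfl⟩ := List.mem_map.1 hx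
    exact huv l v hv)) hsp

/-- Positions in a chain: the size of the image stays within the level. -/
theorem size_reg (D : Dec H) {R0 M0 : ℕ} (hM0 : ∀ x ∈ Ball S R0, size (D.fc π x) ≤ M0) {J : ℕ}
    (u : Fin J → List H) (sp : H) (t : Fin J → H) (ht : ∀ l, IsPos (π (t l))) (hu : ∀ l, u l ≠ [])
    (huv : ∀ l, ∀ v ∈ u l, IsPos (π v)) (hsp : IsPos (π sp)) (l : Fin J) {x : Γ}
    (hx : x ∈ reg S R0 u sp t l) :
    size (π (pre u sp t l.val)) ≤ size (D.fc π x) + M0 ∧
      size (D.fc π x) + size (π sp) ≤ size (π (pre u sp t (l.val + 1))) + M0 := by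
  obtain ⟨y, hy, rfl⟩ := Finset.mem_image.1 hx
  obtain ⟨i, hi, w, hw, rfl⟩ := mem_regL S hy
  set m := pre u sp t l.val * t l * ((u l).take i).prod
  have e : D.fc π (((pre u sp t l.val * t l : H) : Γ) * ((((u l).take i).prod : H) * w)) =
      π m * D.fc π w := by
    rw [← mul_assoc, ← Subgroup.coe_mul, D.fc_mul]
  rw [e]
  have hall : ∀ k : ℕ, ∀ z ∈ (List.ofFn fun i => π (piece u sp t i)).take k, IsPos z := by
    intro k z hz
    obtain ⟨j, rfl⟩ := List.mem_ofFn.1 (List.mem_of_mem_take hz)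
    exact isPos_piece u sp t ht hu huv hsp j
  have htake : ∀ k : ℕ, ∀ z ∈ ((u l).take k).map π, IsPos z := fun k z hz => by
    obtain ⟨v, hv, rfl⟩ := List.mem_map.1 hz
    exact huv l v (List.mem_of_mem_take hv)
  have hfull : ∀ z ∈ (u l).map π, IsPos z := fun z hz => by
    obtain ⟨v, hv, rfl⟩ := List.mem_map.1 hz
    exact huv l v hv
  set A := (List.ofFn fun i => π (piece u sp t i)).take l.val
  have hA : size A.prod = (A.map size).sum := size_prod_pos A (hall _)
  have s1 : size (π m) = size A.prod + size (π (t l)) + (((u l).take i).map fun v => size (π v)).sum := by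
    have h := size_prod_pos (A ++ π (t l) :: ((u l).take i).map π) fun z hz => by
      rcases List.mem_append.1 hz with h | h
      · exact hall _ z h
      · rcases List.mem_cons.1 h with rfl | h
        · exact ht l
        · exact htake i z h
    simp only [List.prod_append, List.prod_cons, List.map_append, List.map_cons, List.sum_append,
      List.sum_cons, List.map_map] at h
    simp only [m, _root_.map_mul, map_pre, map_list_prod, mul_assoc]
    rw [h, hA]
    simp only [Function.comp_def]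
    omega
  have s2 : size (π (pre u sp t (l.val + 1))) = size A.prod + size (π (t l)) +
      ((u l).map fun v => size (π v)).sum + size (π sp) := by
    have h := size_prod_pos (A ++ π (t l) :: ((u l).map π ++ [π sp])) fun z hz => by
      rcases List.mem_append.1 hz with h | h
      · exact hall _ z h
      · rcases List.mem_cons.1 h with rfl | h
        · exact ht l
        · rcases List.mem_append.1 h with h | h
          · exact hfull z h
          · rw [List.mem_singleton] at h; rw [h]; exact hsp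
    simp only [List.prod_append, List.prod_cons, List.prod_nil, mul_one, List.map_append,
      List.map_cons, List.map_nil, List.sum_append, List.sum_cons, List.sum_nil, List.map_map] at h
    rw [pre_succ, _root_.map_mul, map_pre, show π (piece u sp t l) =
      π (t l) * (((u l).map π).prod * π sp) by simp [piece, map_list_prod, mul_assoc]]
    show size (A.prod * _) = _
    rw [h, hA]
    simp only [Function.comp_def]
    omega
  have hle : (((u l).take i).map fun v => size (π v)).sum ≤ ((u l).map fun v => size (π v)).sum :=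
    List.Sublist.sum_le_sum (((u l).take_sublist i).map _) fun _ _ => Nat.zero_le _
  have hb := hM0 w hw
  have e1 := size_ge (π m) (D.fc π w)
  have e2 := size_mul_le (π m) (D.fc π w)
  rw [map_pre]
  show size A.prod ≤ _ ∧ _
  omega

/-- Bridges of different levels, or of one level after a first difference, are disjoint. -/
theorem reg_disjoint (D : Dec H) {R0 M0 : ℕ} (hM0 : ∀ x ∈ Ball S R0, size (D.fc π x) ≤ M0) {J : ℕ}
    (u : Fin J → List H) (sp : H) (hu : ∀ l, u l ≠ []) (huv : ∀ l, ∀ v ∈ u l, IsPos (π v))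
    (hsp : IsPos (π sp)) (hgap : 2 * M0 < size (π sp)) (t t' : Fin J → H)
    (ht : ∀ l, IsPos (π (t l))) (htt : ∀ l, π (t' l) = π (t l)) {l l' : Fin J} (hne : l ≠ l') :
    Disjoint (reg S R0 u sp t l) (reg S R0 u sp t' l') := by
  rw [Finset.disjoint_left]
  intro x hx hx'
  have ht' : ∀ l, IsPos (π (t' l)) := fun l => htt l ▸ ht l
  have h1 := size_reg D hM0 u sp t ht hu huv hsp l hx
  have h2 := size_reg D hM0 u sp t' ht' hu huv hsp l' hx'
  have hpre : ∀ k, π (pre u sp t' k) = π (pre u sp t k) := fun k => by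
    simp only [map_pre, piece, _root_.map_mul, htt]
  simp only [hpre] at h2
  have hmono : ∀ a b : ℕ, a ≤ b → size (π (pre u sp t a)) ≤ size (π (pre u sp t b)) := by
    intro a b hab
    have hall : ∀ k : ℕ, ∀ z ∈ (List.ofFn fun i => π (piece u sp t i)).take k, IsPos z := by
      intro k z hz
      obtain ⟨j, rfl⟩ := List.mem_ofFn.1 (List.mem_of_mem_take hz)
      exact isPos_piece u sp t ht hu huv hsp j
    rw [map_pre, map_pre, size_prod_pos _ (hall a), size_prod_pos _ (hall b)]
    exact List.Sublist.sum_le_sum ((List.take_sublist_take_left hab).map _) fun _ _ => Nat.zero_le _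
  rcases lt_or_gt_of_ne hne with h | h
  · have := hmono (l.val + 1) l'.val h
    omega
  · have := hmono (l'.val + 1) l.val h
    omega

/-- Separated bridges at the first different level. -/
theorem reg_disjoint_first {R0 R2 : ℕ} {J : ℕ} (u : Fin J → List H) (sp : H)
    (hu : ∀ l, ∀ v ∈ u l, (v : Γ) ∈ Ball S R0) (t t' : Fin J → H) {l : Fin J}
    (hpre : ∀ i, i < l → t i = t' i) (hR2 : 2 * (R0 * ((u l).length + 1)) ≤ R2)
    (hsep : (((t l)⁻¹ * t' l : H) : Γ) ∉ Ball S R2) :
    Disjoint (reg S R0 u sp t l) (reg S R0 u sp t' l) := by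
  rw [Finset.disjoint_left]
  intro x hx hx'
  obtain ⟨a, ha, rfl⟩ := Finset.mem_image.1 hx
  obtain ⟨b, hb, he⟩ := Finset.mem_image.1 hx'
  have hp : pre u sp t' l.val = pre u sp t l.val := by
    have e : ∀ k : ℕ, k ≤ l.val → pre u sp t' k = pre u sp t k := by
      intro k
      induction k with
      | zero => simp [pre]
      | succ k ih =>
        intro hk
        have hkJ : k < J := lt_of_lt_of_le (Nat.lt_of_succ_le hk) l.isLt.le
        rw [show k + 1 = (⟨k, hkJ⟩ : Fin J).val + 1 from rfl, pre_succ, pre_succ,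
          ih (Nat.le_of_succ_le hk)]
        simp only [piece, hpre ⟨k, hkJ⟩ (Nat.lt_of_succ_le hk)]
    exact e _ le_rfl
  rw [hp, Subgroup.coe_mul, Subgroup.coe_mul, mul_assoc, mul_assoc] at he
  have he' : (((t l)⁻¹ * t' l : H) : Γ) = a * b⁻¹ := by
    rw [Subgroup.coe_mul, Subgroup.coe_inv, eq_mul_inv_iff_mul_eq, mul_assoc, mul_left_cancel he,
      inv_mul_cancel_left]
  refine hsep (Ball_mono S hR2 ?_)
  rw [he', two_mul]
  exact mul_mem_Ball S (regL_subset S (hu l) ha) (inv_mem_Ball S (regL_subset S (hu l) hb))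

open Classical in
/-- The endpoints of a chain give the blocks of a new family. -/
theorem fam_of_atoms (h0 : 0 ≤ p) (h1 : p ≤ 1) (hS : Subgroup.closure (S : Set Γ) = ⊤) (D : Dec H)
    {C e : ℕ} (hg : KerGrowth π S C e) (hcb : CodeBd π S p) (F : Fam π S p) {K j J : ℕ}
    (hK : K + 1 ≤ F.X * (j + 1)) {M0 : ℕ} (hM0 : ∀ x ∈ Ball S F.rad, size (D.fc π x) ≤ M0)
    (sp : H) (hsp : IsPos (π sp)) (hgap : 2 * M0 < size (π sp)) {σ : ℝ} (hσ0 : 0 < σ) {Ls : ℕ}
    (hσ : σ ≤ tauS (cnb S) (Ball S Ls) p 1 (sp : Γ)) (hsps : (sp : Γ) ∈ Ball S Ls)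
    (X : Finset (Prd n)) (g : Prd n → Prd n) (P : Prd n → Finset H) (hX : IsCode X g) {Lp : ℕ}
    (hP : ∀ f ∈ X, ∀ k ∈ P f, π k = g f ∧ (k : Γ) ∈ Ball S Lp)
    (hsep : ∀ f ∈ X, ∀ k ∈ P f, ∀ k' ∈ P f, k ≠ k' →
      ((k⁻¹ * k' : H) : Γ) ∉ Ball S (2 * (F.rad * (j + 2))))
    {thr : ℝ} (hthr : 0 < thr) (hW : ∀ f ∈ X, thr ≤ ∑ k ∈ P f, tau S p (k : Γ))
    {nP : ℕ} (hnP : C * (2 * Lp + 1) ^ e ≤ nP)
    {nE : ℕ} (hnE : C * (2 * ((J + 1) * (Lp + F.rad * (j + 1) + Ls)) + 1) ^ e ≤ nE)
    (hrare : (((nP : ℝ) ^ (J + 1)) ^ 2) * (1 / 2) ^ K ≤ σ ^ (J + 1) * (thr / 2) ^ (J + 1) / 2)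
    (hne : X.Nonempty) :
    ∃ (V : Finset H) (rad : ℕ) (b : H → ℝ), IsCode V (fun h => π h) ∧
      (∀ v ∈ V, (v : Γ) ∈ Ball S rad) ∧ (∀ v, 0 ≤ b v) ∧
      (∀ v ∈ V, b v ≤ tauS (cnb S) (Ball S rad) p 1 v) ∧
      (∀ v ∈ V, b v ≤ (∑ v ∈ V, b v) * (1 / 2) ^ ((J + 1) * (F.X * (j + 1) - 1))) ∧
      σ ^ (J + 1) * (((∑ f ∈ X, ∑ k ∈ P f, tau S p (k : Γ)) / 2) *
          (1 / 2) ^ (F.E * (j + 1) + 1)) ^ (J + 1) ≤ 2 * (nE : ℝ) * ∑ v ∈ V, b v := by
  obtain ⟨Lt, hLtV, hLtc, hLtK, hLtb, hLts, hLtsum⟩ := exists_light h0 h1 hcb F hK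
  obtain ⟨Lk, hLk⟩ := exists_witness S hS h0 h1 ((X.biUnion P).image fun k : H => (k : Γ))
  set w : H → ℝ := fun k => tau S p (k : Γ) / 2
  have hw0 : ∀ k, 0 ≤ w k := fun k => div_nonneg (tau_nonneg S h0 h1 _) zero_le_two
  set W : Prd n → ℝ := fun f => ∑ k ∈ P f, w k
  have hWe : ∀ f, W f = (∑ k ∈ P f, tau S p (k : Γ)) / 2 := fun f => by
    simp only [W, w, Finset.sum_div]
  set pb : (Fin (j + 1) → H) → ℝ := fun f => ∏ i, F.b (f i)
  have hpb0 : ∀ f, 0 ≤ pb f := fun f => Finset.prod_nonneg fun i _ => F.hb0 _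
  set Q := Fintype.piFinset fun _ : Fin (J + 1) => X ×ˢ Lt
  set tw : (Fin (J + 1) → Prd n × (Fin (j + 1) → H)) → Prd n := fun q =>
    (List.ofFn fun l => g (q l).1 * π (List.ofFn (q l).2).prod * π sp).prod
  have htw : IsCode Q tw := by
    have h2 := (hX.mul hLtc).mul (g := fun _ : Unit => π sp) (B := {()})
      ⟨fun _ _ => hsp, fun a _ b _ hab => absurd (Subsingleton.elim a b) hab⟩
    refine IsCode.pow (g := fun x : Prd n × (Fin (j + 1) → H) =>
      g x.1 * π (List.ofFn x.2).prod * π sp) ⟨fun x hx => ?_, fun x hx y hy hxy => ?_⟩ J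
    · exact h2.pos (x, ()) (Finset.mem_product.2 ⟨hx, Finset.mem_singleton_self ()⟩)
    · exact h2.incomp (x, ()) (Finset.mem_product.2 ⟨hx, Finset.mem_singleton_self ()⟩) (y, ())
        (Finset.mem_product.2 ⟨hy, Finset.mem_singleton_self ()⟩) fun h => hxy (congrArg Prod.fst h)
  set coef : ℝ := σ ^ (J + 1) / (2 * nE)
  have hnE0 : 0 < nE := by
    have hC : 0 < C := by
      have h := hg 0 {1} (fun h hh => by
        rw [Finset.mem_singleton] at hh
        simp [hh, one_mem_Ball])
      simp only [Finset.card_singleton, zero_add, one_pow, mul_one] at h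
      omega
    exact lt_of_lt_of_le (Nat.mul_pos hC (Nat.pow_pos (Nat.succ_pos _))) hnE
  set bq : (Fin (J + 1) → Prd n × (Fin (j + 1) → H)) → ℝ := fun q =>
    coef * ∏ l, W (q l).1 * pb (q l).2
  have hend : ∀ q ∈ Q, ∃ y : H, π y = tw q ∧ ∃ L, (y : Γ) ∈ Ball S L ∧
      bq q ≤ tauS (cnb S) (Ball S L) p 1 (y : Γ) := by
    intro q hq
    have hq1 : ∀ l, (q l).1 ∈ X ∧ (q l).2 ∈ Lt := fun l =>
      Finset.mem_product.1 (Fintype.mem_piFinset.1 hq l)
    set u : Fin (J + 1) → List H := fun l => List.ofFn (q l).2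
    set Pq : Fin (J + 1) → Finset H := fun l => P (q l).1
    have hune : ∀ l, u l ≠ [] := fun l => by simp [u]
    have huv : ∀ l, ∀ v ∈ u l, IsPos (π v) := fun l v hv => by
      obtain ⟨i, rfl⟩ := List.mem_ofFn.1 hv
      exact F.hcode.pos _ (hLtV _ (hq1 l).2 i)
    have hub : ∀ l, ∀ v ∈ u l, (v : Γ) ∈ Ball S F.rad := fun l v hv => by
      obtain ⟨i, rfl⟩ := List.mem_ofFn.1 hv
      exact F.hmem _ (hLtV _ (hq1 l).2 i)
    have htP : ∀ t ∈ Fintype.piFinset Pq, ∀ l, π (t l) = g (q l).1 ∧ (t l : Γ) ∈ Ball S Lp :=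
      fun t ht l => hP _ (hq1 l).1 _ (Fintype.mem_piFinset.1 ht l)
    have hpos : ∀ t ∈ Fintype.piFinset Pq, ∀ l, IsPos (π (t l)) := fun t ht l => by
      rw [(htP t ht l).1]; exact hX.pos _ (hq1 l).1
    have hcard : ∀ l, (Pq l).card ≤ nP := fun l =>
      (card_fibre hg (Pq l) (g (q l).1) fun k hk => hP _ (hq1 l).1 k hk).trans hnP
    obtain ⟨L, hL⟩ := chain_le S h0 h1 hS Pq u sp F.rad Lk Ls w hw0 (fun l k hk => by
        have h := hLk (k : Γ) (Finset.mem_image_of_mem _ (Finset.mem_biUnion.2 ⟨_, (hq1 l).1, hk⟩))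
        simp only [w]; linarith) hσ0.le hσ
      (fun t ht l l' hne => reg_disjoint D hM0 u sp hune huv hsp hgap t t (hpos t ht)
        (fun _ => rfl) hne)
      (fun t ht t' ht' hne => by
        have hex : (Finset.univ.filter fun l => t l ≠ t' l).Nonempty := by
          obtain ⟨l, hl⟩ := Function.ne_iff.1 hne
          exact ⟨l, by simp [hl]⟩
        refine ⟨(Finset.univ.filter fun l => t l ≠ t' l).min' hex, fun l => ?_⟩
        set l0 := (Finset.univ.filter fun l => t l ≠ t' l).min' hex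
        by_cases hl : l = l0
        · have hl0 : t l0 ≠ t' l0 := (Finset.mem_filter.1 (Finset.min'_mem _ hex)).2
          subst hl
          refine reg_disjoint_first u sp hub t t' (fun i hi => by
            by_contra h
            exact absurd (Finset.min'_le _ i (Finset.mem_filter.2 ⟨Finset.mem_univ i, h⟩))
              (not_le.2 hi)) (R2 := 2 * (F.rad * (j + 2))) (by simp [u]) ?_
          exact hsep _ (hq1 _).1 _ (Fintype.mem_piFinset.1 ht _) _ (Fintype.mem_piFinset.1 ht' _) hl0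
        · exact reg_disjoint D hM0 u sp hune huv hsp hgap t t' (hpos t ht)
            (fun i => (htP t' ht' i).1.trans (htP t ht i).1.symm) hl)
      (β := (1 / 2) ^ K) (by positivity) (fun l => hLtK _ (hq1 l).2) (by
        refine (mul_le_mul_of_nonneg_right (pow_le_pow_left₀ (Nat.cast_nonneg _)
          (show (((∏ l, (Pq l).card : ℕ)) : ℝ) ≤ (nP : ℝ) ^ (J + 1) by
            rw [Nat.cast_prod]
            refine (Finset.prod_le_prod (fun l _ => Nat.cast_nonneg _)
              fun l _ => Nat.cast_le.2 (hcard l)).trans (le_of_eq ?_)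
            simp) 2) (by positivity)).trans (hrare.trans ?_)
        refine div_le_div_of_nonneg_right (mul_le_mul_of_nonneg_left ?_ (by positivity)) zero_le_two
        refine le_trans (le_of_eq (by rw [Finset.prod_const, Finset.card_univ, Fintype.card_fin]))
          (Finset.prod_le_prod
          (f := fun _ : Fin (J + 1) => thr / 2) (fun _ _ => by positivity) fun l _ => ?_)
        show thr / 2 ≤ W (q l).1
        rw [hWe]
        exact div_le_div_of_nonneg_right (hW _ (hq1 l).1) zero_le_two)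
    set Yend := (Fintype.piFinset Pq).image fun t => pre u sp t (J + 1)
    have hYmem : ∀ y ∈ Yend, π y = tw q ∧
        (y : Γ) ∈ Ball S ((J + 1) * (Lp + F.rad * (j + 1) + Ls)) := by
      intro y hy
      obtain ⟨t, ht, rfl⟩ := Finset.mem_image.1 hy
      constructor
      · rw [map_pre, List.take_of_length_le (by simp)]
        simp only [tw]
        congr 2
        funext l
        simp only [piece, u, _root_.map_mul, (htP t ht l).1]
      · rw [pre, List.take_of_length_le (by simp), mul_comm]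
        have h := prod_mem_Ball S (R0 := Lp + F.rad * (j + 1) + Ls) (List.ofFn (piece u sp t))
          fun v hv => by
            obtain ⟨l, rfl⟩ := List.mem_ofFn.1 hv
            simp only [piece, Subgroup.coe_mul]
            refine mul_mem_Ball S (mul_mem_Ball S (htP t ht l).2 ?_) hsps
            have h' := prod_mem_Ball S (u l) (hub l)
            simpa [u] using h'
        simpa using h
    have hYne : Yend.Nonempty := by
      refine Finset.Nonempty.image (Fintype.piFinset_nonempty.2 fun l => ?_) _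
      by_contra h
      have := hW _ (hq1 l).1
      rw [Finset.not_nonempty_iff_eq_empty] at h
      simp only [Pq] at h
      rw [h, Finset.sum_empty] at this
      linarith
    obtain ⟨y, hy, hmax⟩ := Finset.exists_max_image Yend
      (fun y : H => tauS (cnb S) (Ball S L) p 1 (y : Γ)) hYne
    refine ⟨y, (hYmem y hy).1, max L ((J + 1) * (Lp + F.rad * (j + 1) + Ls)),
      Ball_mono S (le_max_right _ _) (hYmem y hy).2, ?_⟩
    refine le_trans ?_ (tauS_mono (lf_cay S) h0 h1 (Ball_mono S (le_max_left _ _)) 1 (y : Γ))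
    have hsum := hL.trans (Finset.sum_le_card_nsmul _ _ _ hmax)
    rw [nsmul_eq_mul] at hsum
    have hc' : (Yend.card : ℝ) ≤ nE := Nat.cast_le.2
      ((card_fibre hg Yend (tw q) hYmem).trans hnE)
    have hnE' : (0 : ℝ) < nE := Nat.cast_pos.2 hnE0
    have hle : (∏ l, W (q l).1 * pb (q l).2) * (σ ^ (J + 1) / 2) ≤
        (nE : ℝ) * tauS (cnb S) (Ball S L) p 1 (y : Γ) := by
      refine le_trans ?_ (hsum.trans (mul_le_mul_of_nonneg_right hc' (tauS_nonneg h0 h1 _ _ _)))
      rw [Finset.prod_mul_distrib]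
      refine le_trans (le_of_eq ?_) (mul_le_mul_of_nonneg_right
        (Finset.prod_le_prod (fun l _ => hpb0 _) fun l _ => hLtb _ (hq1 l).2)
        (div_nonneg (mul_nonneg (pow_nonneg hσ0.le _)
          (Finset.prod_nonneg fun l _ => Finset.sum_nonneg fun k _ => hw0 k)) zero_le_two))
      simp only [pb, W, Pq]
      ring
    simp only [bq, coef]
    rw [div_mul_eq_mul_div, div_le_iff₀ (by positivity)]
    linarith
  choose! yq hyq Lq hyL hyb using hend
  have hinj : Set.InjOn yq Q := fun a ha b hb he => by_contra fun hne =>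
    incomp_ne (htw.incomp a ha b hb hne) (by rw [← hyq a ha, ← hyq b hb, he])
  set bnew : H → ℝ := fun v => if h : ∃ q ∈ Q, yq q = v then bq h.choose else 0
  have hbnew : ∀ q ∈ Q, bnew (yq q) = bq q := fun q hq => by
    have h : ∃ q' ∈ Q, yq q' = yq q := ⟨q, hq, rfl⟩
    simp only [bnew, dif_pos h]
    rw [hinj h.choose_spec.1 hq h.choose_spec.2]
  have hbq0 : ∀ q, 0 ≤ bq q := fun q => mul_nonneg (by positivity) (Finset.prod_nonneg fun l _ =>
    mul_nonneg (Finset.sum_nonneg fun k _ => hw0 k) (hpb0 _))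
  set Tot := ∑ f ∈ X, W f
  set Spb := ∑ f ∈ Lt, pb f
  have hsumQ : ∑ v ∈ Q.image yq, bnew v = coef * (Tot * Spb) ^ (J + 1) := by
    rw [Finset.sum_image hinj, Finset.sum_congr rfl hbnew]
    simp only [bq]
    rw [← Finset.mul_sum, show Tot * Spb = ∑ x ∈ X ×ˢ Lt, W x.1 * pb x.2 by
      rw [Finset.sum_product, Finset.sum_mul_sum], Finset.sum_pow']
  refine ⟨Q.image yq, Q.sup Lq, bnew, ⟨fun v hv => ?_, fun v hv v' hv' hne => ?_⟩, fun v hv => ?_,
    fun v => ?_, fun v hv => ?_, fun v hv => ?_, ?_⟩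
  · obtain ⟨q, hq, rfl⟩ := Finset.mem_image.1 hv
    show IsPos (π (yq q))
    rw [hyq q hq]; exact htw.pos q hq
  · obtain ⟨q, hq, rfl⟩ := Finset.mem_image.1 hv
    obtain ⟨q', hq', rfl⟩ := Finset.mem_image.1 hv'
    show Incomp (π (yq q)) (π (yq q'))
    rw [hyq q hq, hyq q' hq']
    exact htw.incomp q hq q' hq' fun e => hne (e ▸ rfl)
  · obtain ⟨q, hq, rfl⟩ := Finset.mem_image.1 hv
    exact Ball_mono S (Finset.le_sup hq) (hyL q hq)
  · simp only [bnew]
    split_ifs with h
    exacts [hbq0 _, le_rfl]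
  · obtain ⟨q, hq, rfl⟩ := Finset.mem_image.1 hv
    rw [hbnew q hq]
    exact (hyb q hq).trans (tauS_mono (lf_cay S) h0 h1 (Ball_mono S (Finset.le_sup hq)) 1 _)
  · obtain ⟨q, hq, rfl⟩ := Finset.mem_image.1 hv
    rw [hbnew q hq, hsumQ]
    simp only [bq]
    rw [mul_assoc coef, mul_comm (J + 1), pow_mul, ← mul_pow]
    refine mul_le_mul_of_nonneg_left ?_ (by positivity)
    refine le_trans (Finset.prod_le_prod
      (g := fun _ : Fin (J + 1) => Tot * Spb * (1 / 2) ^ (F.X * (j + 1) - 1))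
      (fun l _ => mul_nonneg (Finset.sum_nonneg fun k _ => hw0 k) (hpb0 _)) fun l _ => ?_)
      (le_of_eq (by rw [Finset.prod_const, Finset.card_univ, Fintype.card_fin]))
    obtain ⟨hf, hu⟩ := Finset.mem_product.1 (Fintype.mem_piFinset.1 hq l)
    rw [mul_assoc]
    refine mul_le_mul (Finset.single_le_sum (f := W)
      (fun f _ => Finset.sum_nonneg fun k _ => hw0 k) hf) ?_ (hpb0 _)
      (Finset.sum_nonneg fun f _ => Finset.sum_nonneg fun k _ => hw0 k)
    refine (hLts _ hu).trans ?_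
    refine le_trans (le_of_eq ?_) (mul_le_mul_of_nonneg_right hLtsum (by positivity))
    rw [← pow_add]
    congr 1
    rw [add_mul]
    omega
  · rw [hsumQ]
    simp only [coef]
    have hTot : (∑ f ∈ X, ∑ k ∈ P f, tau S p (k : Γ)) / 2 = Tot := by
      simp only [Tot, hWe, Finset.sum_div]
    rw [hTot]
    have hT0 : 0 ≤ Tot := Finset.sum_nonneg fun f _ => Finset.sum_nonneg fun k _ => hw0 k
    have hnE' : (0 : ℝ) < nE := Nat.cast_pos.2 hnE0
    calc σ ^ (J + 1) * (Tot * (1 / 2) ^ (F.E * (j + 1) + 1)) ^ (J + 1)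
        ≤ σ ^ (J + 1) * (Tot * Spb) ^ (J + 1) :=
          mul_le_mul_of_nonneg_left (pow_le_pow_left₀ (by positivity)
            (mul_le_mul_of_nonneg_left hLtsum hT0) _) (by positivity)
      _ = _ := by field_simp

end Vale.Agent.P165FreeProd.Ker
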