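import Vale.Agent.P165FreeProd.Ker.Prep
import Vale.Agent.P165FreeProd.Ker.Compose

/-!
# The mass of polynomially many points is sublinear
-/

namespace Vale.Agent.P165FreeProd.Ker

open Vale.Agent.P165 Filter Topology

variable {d : ℕ} {n : Fin d → ℕ} {Γ : Type*} [Group Γ] [DecidableEq Γ] {H : Subgroup Γ}
  {π : H →* Prd n} {S : Finset Γ} {p : ℝ}

/-- Polynomials are eventually below powers of two. -/
theorem eventually_poly (C m : ℕ) : ∀ᶠ h in (atTop : Filter ℕ), C * (h + 1) ^ m ≤ 2 ^ h := by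
  have t1 : Tendsto (fun h : ℕ => (((h : ℝ) + 1) ^ m) / (2 : ℝ) ^ h) atTop (𝓝 0) := by
    have := ((tendsto_pow_const_div_const_pow_of_one_lt m (one_lt_two (α := ℝ))).comp
      (tendsto_add_atTop_nat 1)).mul_const 2
    simp only [Function.comp_def, zero_mul, Nat.cast_add, Nat.cast_one, pow_succ] at this
    refine this.congr fun j => ?_
    field_simp
  filter_upwards [(t1.const_mul (C : ℝ)).eventually
    (gt_mem_nhds (show (C : ℝ) * 0 < 1 by norm_num))] with h hh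
  rw [← mul_div_assoc, div_lt_iff₀ (by positivity), one_mul] at hh
  have h2 : ((C * (h + 1) ^ m : ℕ) : ℝ) ≤ ((2 ^ h : ℕ) : ℝ) := by push_cast; exact hh.le
  exact_mod_cast h2

/-- The number of levels of a chain. -/
def levels (e : ℕ) : ℕ := 8 * e + 4

/-- The rarity of the bridges. -/
def kappa (A e : ℕ) : ℕ := 2 * (levels e + 1) * (4 * e + 1) + (levels e + 1) * (A + 3) + 1

/-- The exponent decreases. -/
theorem exponent_step {X E a h j e κ J : ℕ} (hJ : J = 8 * e + 5) (hκ : 1 ≤ κ)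
    (hEQ : E * (2 * κ) ≤ a * X) (ha : 1 ≤ a) (hj1 : κ * h + 1 ≤ X * (j + 1)) (hj2 : X * j ≤ κ * h)
    (hh : J * (a + X) ≤ h) :
    (J * E * (j + 1) + (4 * e + 2) * h - J * h) * (2 * κ) ≤
      (a - 1) * (J * (X * (j + 1) - 1)) := by
  rcases le_or_gt (J * E * (j + 1) + (4 * e + 2) * h) (J * h) with hle | hlt
  · rw [Nat.sub_eq_zero_of_le hle, zero_mul]; exact Nat.zero_le _
  set P := J * E * (j + 1)
  set T := X * (j + 1)
  have h1 : ((P : ℤ)) * (2 * κ) ≤ J * (T * a) := by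
    have : P * (2 * κ) ≤ J * (T * a) := by
      calc P * (2 * κ) = J * (j + 1) * (E * (2 * κ)) := by simp only [P]; ring
        _ ≤ J * (j + 1) * (a * X) := Nat.mul_le_mul_left _ hEQ
        _ = _ := by simp only [T]; ring
    exact_mod_cast this
  have h2 : (T : ℤ) ≤ κ * h + X := by
    have : T ≤ κ * h + X := by
      simp only [T, Nat.mul_succ]
      omega
    exact_mod_cast this
  have h3 : (J : ℤ) * (a + X) ≤ h := by exact_mod_cast hh
  have h4 : (h : ℤ) ≤ κ * h := by exact_mod_cast Nat.le_mul_of_pos_left h hκ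
  have h5 := mul_le_mul_of_nonneg_left h2 (Int.natCast_nonneg J)
  zify [hlt.le, ha, show 1 ≤ T by omega]
  rw [hJ] at h1 h3 h5 ⊢
  push_cast at h1 h3 h5 ⊢
  nlinarith

theorem two_pow_half (k : ℕ) : (2 : ℝ) ^ k * (1 / 2) ^ k = 1 := by
  rw [← mul_pow]; norm_num

/-- Powers of one half. -/
theorem half_pow_le {s : ℝ} {a b : ℕ} (h : a ≤ b) (hs : (1 / 2 : ℝ) ^ a ≤ s) :
    (1 / 2 : ℝ) ^ b ≤ s := (pow_le_pow_of_le_one (by norm_num) (by norm_num) h).trans hs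

/-- The numerical side of the rarity condition. -/
theorem rare_num {A e h : ℕ} (hh : 1 ≤ h) {σ : ℝ} (hσ : (1 / 2 : ℝ) ^ h ≤ σ) :
    ((((2 ^ ((4 * e + 1) * h) : ℕ) : ℝ) ^ (levels e + 1)) ^ 2) * (1 / 2) ^ (kappa A e * h) ≤
      σ ^ (levels e + 1) * ((1 / 2) ^ ((A + 1) * h) / 2) ^ (levels e + 1) / 2 := by
  have hk : kappa A e * h =
      (4 * e + 1) * h * ((levels e + 1) * 2) + ((levels e + 1) * (A + 3) * h + h) := by
    simp only [kappa]; ring
  rw [Nat.cast_pow, Nat.cast_ofNat, ← pow_mul, ← pow_mul, hk, pow_add, ← mul_assoc, two_pow_half,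
    one_mul]
  have h1 : (1 / 2 : ℝ) ^ ((A + 2) * h) ≤ (1 / 2) ^ ((A + 1) * h) / 2 := by
    rw [show (1 / 2 : ℝ) ^ ((A + 1) * h) / 2 = (1 / 2) ^ ((A + 1) * h + 1) by rw [pow_succ]; ring]
    exact pow_le_pow_of_le_one (by norm_num) (by norm_num) (by nlinarith)
  generalize levels e + 1 = J
  have h0 : (1 / 2 : ℝ) ^ (h * J + (A + 2) * h * J + 1) ≤
      σ ^ J * ((1 / 2) ^ ((A + 1) * h) / 2) ^ J / 2 := by
    rw [pow_succ, pow_add, pow_mul, pow_mul, mul_one_div]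
    refine div_le_div_of_nonneg_right ?_ zero_le_two
    exact mul_le_mul (pow_le_pow_left₀ (by positivity) hσ _)
      (pow_le_pow_left₀ (by positivity) h1 _) (by positivity)
      ((pow_nonneg ((show (0 : ℝ) ≤ (1 / 2) ^ h by positivity).trans hσ) _))
  exact le_trans (pow_le_pow_of_le_one (by norm_num) (by norm_num) (by nlinarith)) h0

/-- The losses are polynomial. -/
theorem loss_le {R a0 dd C e rad κ A h kk j : ℕ} (hkk : 2 ^ kk ≤ 2 * (2 * dd * A * h + 1))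
    (hj : j ≤ κ * h) :
    4 * ((R + 1) * 2 ^ a0 * (2 * (kk + 1) ^ dd) * (C * (2 * (rad * (j + 2)) + 1) ^ e + 1) *
        2 ^ (a0 * (kk + 3))) ≤
      4 * ((R + 1) * 2 ^ a0 * (2 * (4 * dd * A + 2) ^ dd) *
        ((C + 1) * (2 * rad * (κ + 2) + 1) ^ e) * (16 * (2 * dd * A + 1)) ^ a0) *
        (h + 1) ^ (dd + e + a0) := by
  have q0 : 2 * (2 * dd * A * h + 1) ≤ (4 * dd * A + 2) * (h + 1) := by nlinarith
  have q1 : kk + 1 ≤ (4 * dd * A + 2) * (h + 1) :=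
    (Nat.succ_le_of_lt Nat.lt_two_pow_self).trans (hkk.trans q0)
  have q2 : 2 * (rad * (j + 2)) + 1 ≤ (2 * rad * (κ + 2) + 1) * (h + 1) := by
    have := Nat.mul_le_mul_left rad (Nat.add_le_add_right hj 2)
    nlinarith
  have q3 : 2 ^ (kk + 3) ≤ 16 * (2 * dd * A + 1) * (h + 1) := by
    rw [pow_add]
    refine (Nat.mul_le_mul_right _ hkk).trans ?_
    nlinarith
  have q4 : C * (2 * (rad * (j + 2)) + 1) ^ e + 1 ≤
      (C + 1) * ((2 * rad * (κ + 2) + 1) * (h + 1)) ^ e := by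
    rw [add_one_mul]
    exact Nat.add_le_add (Nat.mul_le_mul_left _ (Nat.pow_le_pow_left q2 _))
      (Nat.one_le_pow _ _ (Nat.mul_pos (Nat.succ_pos _) (Nat.succ_pos _)))
  calc 4 * ((R + 1) * 2 ^ a0 * (2 * (kk + 1) ^ dd) * (C * (2 * (rad * (j + 2)) + 1) ^ e + 1) *
        2 ^ (a0 * (kk + 3)))
      ≤ 4 * ((R + 1) * 2 ^ a0 * (2 * ((4 * dd * A + 2) * (h + 1)) ^ dd) *
        ((C + 1) * ((2 * rad * (κ + 2) + 1) * (h + 1)) ^ e) *
        (16 * (2 * dd * A + 1) * (h + 1)) ^ a0) := by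
        rw [mul_comm a0 (kk + 3), pow_mul]
        gcongr
    _ = _ := by simp only [mul_pow, pow_add]; ring

/-- The radii are below eight times the scale. -/
theorem radius_le {r0 rs dd A rad κ Ls h kk j : ℕ} (hkk : 2 ^ kk ≤ 2 * (2 * dd * A * h + 1))
    (hj : j ≤ κ * h) (hC1 : (r0 + rs * (4 * dd * A + 6) + rad * (κ + 1) + Ls) * (h + 1) ≤ 2 ^ h) :
    2 ^ (4 * h + 2) + r0 + rs * (kk + 3) + rad * (j + 1) + Ls ≤ 2 ^ (4 * h + 3) := by
  have hk : kk + 3 ≤ (4 * dd * A + 6) * (h + 1) := by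
    refine (Nat.add_le_add_right ((Nat.le_of_lt Nat.lt_two_pow_self).trans hkk) 3).trans ?_
    nlinarith
  have hj' : j + 1 ≤ (κ + 1) * (h + 1) := by
    refine (Nat.succ_le_succ hj).trans ?_
    nlinarith
  have h1 := Nat.mul_le_mul_left rs hk
  have h2 := Nat.mul_le_mul_left rad hj'
  have h'' : 2 ^ h ≤ 2 ^ (4 * h + 2) := Nat.pow_le_pow_right (by norm_num) (by omega)
  rw [pow_succ' 2 (4 * h + 2)]
  have h3 : r0 + rs * (kk + 3) + rad * (j + 1) + Ls ≤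
      (r0 + rs * (4 * dd * A + 6) + rad * (κ + 1) + Ls) * (h + 1) := by
    rw [add_mul, add_mul, add_mul, mul_assoc rs, mul_assoc rad]
    exact Nat.add_le_add (Nat.add_le_add (Nat.add_le_add
      (Nat.le_mul_of_pos_right r0 (Nat.succ_pos h)) h1) h2)
      (Nat.le_mul_of_pos_right Ls (Nat.succ_pos h))
  omega

/-- The fibres of the endpoints. -/
theorem fibre_le {C e J Le h : ℕ} (hLe : Le ≤ 2 ^ (4 * h + 3))
    (hC2 : C * (32 * (J + 1)) ^ e ≤ 2 ^ h) :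
    C * (2 * ((J + 1) * Le) + 1) ^ e ≤ 2 ^ ((4 * e + 1) * h) := by
  have h1' : 2 * ((J + 1) * Le) + 1 ≤ 32 * (J + 1) * 2 ^ (4 * h) := by
    have := Nat.mul_le_mul_left (J + 1) hLe
    rw [pow_add] at this
    have : 1 ≤ (J + 1) * 2 ^ (4 * h) := Nat.mul_pos (Nat.succ_pos J) (Nat.two_pow_pos _)
    nlinarith
  calc C * (2 * ((J + 1) * Le) + 1) ^ e ≤ C * (32 * (J + 1) * 2 ^ (4 * h)) ^ e :=
        Nat.mul_le_mul_left _ (Nat.pow_le_pow_left h1' _)
    _ = C * (32 * (J + 1)) ^ e * 2 ^ (4 * h * e) := by rw [mul_pow, ← pow_mul]; ring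
    _ ≤ 2 ^ h * 2 ^ (4 * h * e) := Nat.mul_le_mul_right _ hC2
    _ = _ := by rw [← pow_add]; congr 1; ring

/-- The atoms carry the mass up to the losses. -/
theorem atoms_ge {sV sU Tot c : ℝ} {A h cU kk dd N a0 R : ℕ} (ha0 : (1 / 2 : ℝ) ^ a0 ≤ c)
    (hsV : 0 ≤ sV) (hsU : 0 ≤ sU) (hTot : 0 ≤ Tot) (hU : c * sV ≤ (R : ℝ) * sU)
    (hsum : c ^ (kk + 3) * sU ≤ 2 * ((kk : ℝ) + 1) ^ dd *
      (((N : ℝ) + 1) * ((cU : ℝ) * (1 / 2) ^ ((A + 1) * h) + Tot)))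
    (hcU : cU ≤ 2 ^ (A * h))
    (hPB : 4 * ((R + 1) * 2 ^ a0 * (2 * (kk + 1) ^ dd) * (N + 1) * 2 ^ (a0 * (kk + 3))) ≤ 2 ^ h)
    (hbig : (2 : ℝ) ^ (3 * h) < sV) : (2 : ℝ) ^ (2 * h) ≤ Tot / 2 := by
  set PB := (R + 1) * 2 ^ a0 * (2 * (kk + 1) ^ dd) * (N + 1) * 2 ^ (a0 * (kk + 3))
  have hc2 : (1 / 2 : ℝ) ^ (a0 * (kk + 3)) ≤ c ^ (kk + 3) := by
    rw [pow_mul]; exact pow_le_pow_left₀ (by positivity) ha0 _
  have hslack : (cU : ℝ) * (1 / 2) ^ ((A + 1) * h) ≤ 1 := by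
    refine (mul_le_mul_of_nonneg_right (Nat.cast_le.2 hcU) (by positivity)).trans ?_
    rw [Nat.cast_pow, Nat.cast_ofNat, add_mul A 1 h, one_mul, pow_add, ← mul_assoc, two_pow_half,
      one_mul]
    exact pow_le_one₀ (by norm_num) (by norm_num)
  have hA1 : sU ≤ (2 : ℝ) ^ (a0 * (kk + 3)) * (2 * ((kk : ℝ) + 1) ^ dd *
      (((N : ℝ) + 1) * (1 + Tot))) := by
    have h := (mul_le_mul_of_nonneg_right hc2 hsU).trans (hsum.trans (mul_le_mul_of_nonneg_left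
      (mul_le_mul_of_nonneg_left (add_le_add_left hslack Tot) (by positivity)) (by positivity)))
    rwa [one_div, inv_pow, inv_mul_le_iff₀ (by positivity)] at h
  have hA2 : sV ≤ (2 : ℝ) ^ a0 * ((R + 1 : ℕ) : ℝ) * sU := by
    have h := (mul_le_mul_of_nonneg_right ha0 hsV).trans (hU.trans (mul_le_mul_of_nonneg_right
      (Nat.cast_le.2 (Nat.le_succ R)) hsU))
    rwa [one_div, inv_pow, inv_mul_le_iff₀ (by positivity), ← mul_assoc] at h
  have hVT : sV ≤ (PB : ℝ) * (1 + Tot) := by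
    refine (hA2.trans (mul_le_mul_of_nonneg_left hA1 (by positivity))).trans (le_of_eq ?_)
    simp only [PB]
    push_cast
    ring
  have h4 : 4 * (PB : ℝ) ≤ (2 : ℝ) ^ h := by exact_mod_cast hPB
  have h5 : (2 : ℝ) ^ h * (4 * 2 ^ (2 * h)) < (2 : ℝ) ^ h * (1 + Tot) := by
    calc (2 : ℝ) ^ h * (4 * 2 ^ (2 * h)) = 4 * 2 ^ (3 * h) := by
          rw [show 3 * h = h + 2 * h by ring, pow_add]; ring
      _ < 4 * ((PB : ℝ) * (1 + Tot)) := by linarith
      _ ≤ _ := by rw [← mul_assoc]; exact mul_le_mul_of_nonneg_right h4 (by linarith)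
  have h6 := lt_of_mul_lt_mul_left h5 (by positivity)
  linarith [one_le_pow₀ (one_le_two (α := ℝ)) (n := 2 * h)]

/-- The mass of the new family. -/
theorem eta_ge {σ T η : ℝ} {J e h E0 : ℕ} (hσ : (1 / 2 : ℝ) ^ h ≤ σ) (hJh : J + 1 ≤ h)
    (hT : (2 : ℝ) ^ (2 * h) ≤ T)
    (hsum : σ ^ J * (T * (1 / 2) ^ (E0 + 1)) ^ J ≤ 2 * ((2 ^ ((4 * e + 1) * h) : ℕ) : ℝ) * η) :
    (2 : ℝ) ^ (J * h) * (1 / 2) ^ (J * E0 + (4 * e + 2) * h) ≤ η := by
  rw [Nat.cast_pow, Nat.cast_ofNat] at hsum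
  have h1 : (2 : ℝ) ^ (J * h) * (1 / 2) ^ (J * (E0 + 1)) ≤ σ ^ J * (T * (1 / 2) ^ (E0 + 1)) ^ J := by
    refine le_trans (le_of_eq ?_) (mul_le_mul (pow_le_pow_left₀ (by positivity) hσ J)
      (pow_le_pow_left₀ (by positivity) (mul_le_mul_of_nonneg_right hT
        (show (0 : ℝ) ≤ (1 / 2) ^ (E0 + 1) by positivity)) J) (by positivity)
      (pow_nonneg ((show (0 : ℝ) ≤ (1 / 2) ^ h by positivity).trans hσ) _))
    rw [mul_pow, ← pow_mul, ← pow_mul, ← pow_mul, show 2 * h * J = h * J + J * h by ring,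
      pow_add (2 : ℝ), ← mul_assoc, ← mul_assoc, mul_comm ((1 / 2 : ℝ) ^ (h * J)), two_pow_half,
      one_mul, mul_comm (E0 + 1) J]
  have h2 : (2 : ℝ) ^ (J * h) * (1 / 2) ^ (J * E0 + (4 * e + 2) * h) *
      (2 * 2 ^ ((4 * e + 1) * h)) ≤ (2 : ℝ) ^ (J * h) * (1 / 2) ^ (J * (E0 + 1)) := by
    rw [mul_assoc]
    refine mul_le_mul_of_nonneg_left ?_ (by positivity)
    obtain ⟨r, hr⟩ := Nat.exists_eq_add_of_le (show J * (E0 + 1) + ((4 * e + 1) * h + 1) ≤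
      J * E0 + (4 * e + 2) * h by
        rw [show (4 * e + 2) * h = (4 * e + 1) * h + h by ring, Nat.mul_succ]; omega)
    rw [hr, pow_add, pow_add, pow_succ (1 / 2 : ℝ) ((4 * e + 1) * h)]
    calc (1 / 2 : ℝ) ^ (J * (E0 + 1)) * ((1 / 2) ^ ((4 * e + 1) * h) * (1 / 2)) * (1 / 2) ^ r *
          (2 * 2 ^ ((4 * e + 1) * h))
        = (1 / 2 : ℝ) ^ (J * (E0 + 1)) * (1 / 2) ^ r *
          (2 ^ ((4 * e + 1) * h) * (1 / 2) ^ ((4 * e + 1) * h)) := by ring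
      _ ≤ _ := by
        rw [two_pow_half, mul_one]
        exact mul_le_of_le_one_right (by positivity) (pow_le_one₀ (by norm_num) (by norm_num))
  refine le_of_mul_le_mul_right ?_ (show (0 : ℝ) < 2 * 2 ^ ((4 * e + 1) * h) by positivity)
  linarith [h2.trans (h1.trans hsum)]

/-- Rescaling blocks gives a family with exact powers of one half. -/
theorem fam_of_blocks (h0 : 0 ≤ p) (h1 : p ≤ 1) (hcb : CodeBd π S p) {Vn : Finset H} {rad : ℕ}
    {b : H → ℝ} (hcode : IsCode Vn fun v => π v) (hmem : ∀ v ∈ Vn, (v : Γ) ∈ Ball S rad)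
    (hb0 : ∀ v, 0 ≤ b v) (hb : ∀ v ∈ Vn, b v ≤ tauS (cnb S) (Ball S rad) p 1 (v : Γ)) {X' : ℕ}
    (hX' : 0 < X') (hbsm : ∀ v ∈ Vn, b v ≤ (∑ v ∈ Vn, b v) * (1 / 2) ^ X') {G Z : ℕ}
    (hη : (2 : ℝ) ^ G * (1 / 2) ^ Z ≤ ∑ v ∈ Vn, b v) {Q a : ℕ}
    (harith : (Z - G) * Q ≤ a * X') : G ≤ Z ∧ HasFam π S p Q a := by
  set η := ∑ v ∈ Vn, b v
  have hηle : η ≤ 1 :=
    (Finset.sum_le_sum fun v hv => (hb v hv).trans (tauS_le_tau S h0 h1 _ _)).trans (hcb Vn hcode)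
  refine ⟨not_lt.1 fun hlt => ?_, ?_⟩
  · obtain ⟨r, hr⟩ := Nat.exists_eq_add_of_le (Nat.succ_le_of_lt hlt)
    rw [hr, pow_add, pow_succ] at hη
    have h2 : (2 : ℝ) ≤ 2 ^ Z * 2 * 2 ^ r * (1 / 2) ^ Z := by
      calc (2 : ℝ) = (2 ^ Z * (1 / 2) ^ Z) * 2 * 1 := by rw [two_pow_half]; ring
        _ ≤ (2 ^ Z * (1 / 2) ^ Z) * 2 * 2 ^ r :=
          mul_le_mul_of_nonneg_left (one_le_pow₀ one_le_two) (by positivity)
        _ = _ := by ring
    linarith
  set E' := Z - G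
  have hE' : (1 / 2 : ℝ) ^ E' ≤ η := by
    refine le_trans ?_ hη
    calc (1 / 2 : ℝ) ^ E' = 2 ^ G * (1 / 2) ^ (E' + G) := by
          rw [pow_add, ← mul_assoc, mul_comm (2 ^ G), mul_assoc, two_pow_half, mul_one]
      _ ≤ _ := mul_le_mul_of_nonneg_left (pow_le_pow_of_le_one (by norm_num) (by norm_num)
          (show Z ≤ E' + G by simp only [E']; omega)) (by positivity)
  have hη0 : 0 < η := (show (0 : ℝ) < (1 / 2) ^ E' by positivity).trans_le hE'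
  set lam : ℝ := (1 / 2) ^ E' / η
  have hlam0 : 0 ≤ lam := by positivity
  have hlam1 : lam ≤ 1 := (div_le_one hη0).2 hE'
  refine ⟨⟨Vn, rad, fun v => lam * b v, E', X', hX', hcode, hmem,
    fun v => mul_nonneg hlam0 (hb0 v),
    fun v hv => (mul_le_of_le_one_left (hb0 v) hlam1).trans (hb v hv), fun v hv => ?_, ?_⟩, harith⟩
  · refine (mul_le_mul_of_nonneg_left (hbsm v hv) hlam0).trans_eq ?_
    rw [pow_add, ← mul_assoc, div_mul_cancel₀ _ hη0.ne']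
  · rw [← Finset.mul_sum, div_mul_cancel₀ _ hη0.ne']

open Classical in
/-- A spacer outweighing a given margin. -/
theorem exists_spacer (hS : Subgroup.closure (S : Set Γ) = ⊤) (hd : 0 < d) (h0 : 0 ≤ p) (h1 : p ≤ 1)
    {c : ℝ} (hc0 : 0 < c) {sv : (Fin d → Bool) → H} (hsv : ∀ v, π (sv v) = gv v)
    (hsvc : ∀ v, c ≤ tau S p (sv v : Γ)) (M0 : ℕ) :
    ∃ (sp : H) (Ls b : ℕ), IsPos (π sp) ∧ 2 * M0 < size (π sp) ∧ (sp : Γ) ∈ Ball S Ls ∧
      (1 / 2 : ℝ) ^ b ≤ tauS (cnb S) (Ball S Ls) p 1 (sp : Γ) := by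
  set sp : H := (List.replicate (2 * M0 + 1) (sv fun _ => false)).prod
  have hspπ : π sp = (List.replicate (2 * M0 + 1) (gv (n := n) fun _ => false)).prod := by
    rw [map_list_prod, List.map_replicate, hsv]
  obtain ⟨L1, hL1⟩ := exists_witness S hS h0 h1 {(sp : Γ)}
  obtain ⟨L2, hL2⟩ := exists_radius hS {(sp : Γ)}
  obtain ⟨b, hb⟩ := exists_pow_lt_of_lt_one (show 0 < c ^ (2 * M0 + 1) / 2 by positivity)
    (by norm_num : (1 / 2 : ℝ) < 1)
  refine ⟨sp, max L1 L2, b, ?_, ?_,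
    Ball_mono S (le_max_right L1 L2) (hL2 (Finset.mem_singleton_self _)), hb.le.trans ?_⟩
  · rw [hspπ]
    exact isPos_prod _ (by simp) fun x hx => by rw [List.eq_of_mem_replicate hx]; exact isPos_gv _
  · rw [hspπ, size_prod_pos _ fun x hx => by rw [List.eq_of_mem_replicate hx]; exact isPos_gv _,
      List.map_replicate, List.sum_replicate, smul_eq_mul]
    have := le_size_of_isPos (isPos_gv (n := n) fun _ : Fin d => false)
    nlinarith
  · have h := prod_pow_le_tau (S := S) h0 h1 hc0.le (List.replicate (2 * M0 + 1) (sv fun _ => false))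
      fun v hv => by rw [List.eq_of_mem_replicate hv]; exact hsvc _
    rw [List.length_replicate] at h
    have h2 := hL1 _ (Finset.mem_singleton_self (sp : Γ))
    have h3 := tauS_mono (lf_cay S) h0 h1 (Ball_mono S (le_max_left L1 L2)) 1 (sp : Γ)
    linarith

open Classical in
/-- Too much mass improves the family. -/
theorem mass_step (hS : Subgroup.closure (S : Set Γ) = ⊤) (D : Dec H) (hd : 0 < d) {C e : ℕ}
    (hg : KerGrowth π S C e) (h0 : 0 ≤ p) (h1 : p ≤ 1) (hcb : CodeBd π S p) {c : ℝ} (hc0 : 0 < c)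
    (hc : ∀ v, ∃ k : H, π k = gv v ∧ c ≤ tau S p (k : Γ)) (hcr : ∀ r ∈ D.R, c ≤ tau S p r⁻¹)
    (A : ℕ) (F : Fam π S p) {a : ℕ} (hF : F.E * (2 * kappa A e) ≤ a * F.X) :
    ∀ᶠ h in (atTop : Filter ℕ), (∀ V : Finset Γ, V ⊆ Ball S (2 ^ (4 * h + 2)) →
      V.card ≤ 2 ^ (A * h) → ∑ x ∈ V, tau S p x ≤ 2 ^ (3 * h)) ∨
        ∃ a', a' < a ∧ HasFam π S p (2 * kappa A e) a' := by
  choose sv hsv hsvc using hc
  obtain ⟨rs, hrs'⟩ := exists_radius hS ((Finset.univ : Finset (Fin d → Bool)).image fun v =>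
    ((sv v : H) : Γ))
  have hrs : ∀ v, (sv v : Γ) ∈ Ball S rs := fun v =>
    hrs' (Finset.mem_image_of_mem _ (Finset.mem_univ v))
  obtain ⟨r0, hr0⟩ := exists_reduce hS D h0 h1 hcr
  obtain ⟨M0, hM0⟩ := exists_size_bound D π (Ball S F.rad)
  obtain ⟨sp, Ls, bσ, hsp, hgap, hsps, hbσ⟩ := exists_spacer hS hd h0 h1 hc0 hsv hsvc M0
  obtain ⟨a0, ha0⟩ := exists_pow_lt_of_lt_one hc0 (by norm_num : (1 / 2 : ℝ) < 1)
  filter_upwards [eventually_poly (4 * ((D.R.card + 1) * 2 ^ a0 * (2 * (4 * d * A + 2) ^ d) *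
      ((C + 1) * (2 * F.rad * (kappa A e + 2) + 1) ^ e) * (16 * (2 * d * A + 1)) ^ a0)) (d + e + a0),
    eventually_poly (r0 + rs * (4 * d * A + 6) + F.rad * (kappa A e + 1) + Ls) 1,
    eventually_poly (C * (32 * (levels e + 1)) ^ e) 0, eventually_ge_atTop bσ,
    eventually_ge_atTop ((levels e + 1) * (a + F.X) + levels e + 2)] with h hC3 hC1 hC2 hbh hh
  refine or_iff_not_imp_left.2 fun hbig => ?_
  push Not at hbig
  obtain ⟨V, hV, hVc, hVs⟩ := hbig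
  obtain ⟨U, hUc, hUb, hUs⟩ := hr0 _ V hV
  set kk := Nat.log 2 (2 * d * A * h + 1) + 1
  set j := kappa A e * h / F.X
  have hj1 : kappa A e * h + 1 ≤ F.X * (j + 1) := Nat.lt_mul_div_succ _ F.hX
  have hj2 : F.X * j ≤ kappa A e * h := Nat.mul_div_le _ _
  have hjle : j ≤ kappa A e * h := Nat.div_le_self _ _
  have hkk1 : 2 * d * A * h + 1 ≤ 2 ^ kk := (Nat.lt_pow_succ_log_self one_lt_two _).le
  have hkk2 : 2 ^ kk ≤ 2 * (2 * d * A * h + 1) := by
    rw [pow_succ']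
    exact Nat.mul_le_mul_left _ (Nat.pow_log_le_self 2 (by simp))
  have hlogU : 2 * d * Nat.log 2 U.card ≤ 2 ^ kk := by
    have h2 := Nat.log_mono_right (b := 2) (hUc.trans hVc)
    rw [Nat.log_pow one_lt_two] at h2
    have := Nat.mul_le_mul_left (2 * d) h2
    rw [← mul_assoc] at this
    omega
  obtain ⟨X, g, P, hX, hP, hsep, hW, hsum⟩ := exists_prep h0 h1 hd hg hc0 sv hsv hsvc hrs U hUb
    (2 * (F.rad * (j + 2))) kk hlogU (thr := (1 / 2) ^ ((A + 1) * h)) (by positivity)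
  have hTot : (2 : ℝ) ^ (2 * h) ≤ (∑ f ∈ X, ∑ k ∈ P f, tau S p (k : Γ)) / 2 :=
    atoms_ge (c := c) ha0.le (Finset.sum_nonneg fun x _ => tau_nonneg S h0 h1 x)
      (Finset.sum_nonneg fun k _ => tau_nonneg S h0 h1 _)
      (Finset.sum_nonneg fun f _ => Finset.sum_nonneg fun k _ => tau_nonneg S h0 h1 _) hUs hsum
      (hUc.trans hVc) ((loss_le (R := D.R.card) hkk2 hjle).trans hC3) hVs
  have hXne : X.Nonempty := by
    by_contra hne
    rw [Finset.not_nonempty_iff_eq_empty] at hne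
    rw [hne, Finset.sum_empty] at hTot
    linarith [one_le_pow₀ (one_le_two (α := ℝ)) (n := 2 * h)]
  have hfib := fibre_le (radius_le hkk2 hjle (by simpa using hC1)) (by simpa using hC2)
  have hσh := half_pow_le hbh hbσ
  obtain ⟨Vn, rad, b, hcode, hmem, hb0, hb, hbsm, hbsum⟩ := fam_of_atoms h0 h1 hS D hg hcb F
    (K := kappa A e * h) (j := j) (J := levels e) hj1 hM0 sp hsp hgap
    ((show (0 : ℝ) < (1 / 2) ^ h by positivity).trans_le hσh) le_rfl hsps X g P hX hP hsep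
    (by positivity) hW (nP := 2 ^ ((4 * e + 1) * h))
    (le_trans (Nat.mul_le_mul_left _ (Nat.pow_le_pow_left (by
      have := Nat.le_mul_of_pos_left (2 ^ (4 * h + 2) + r0 + rs * (kk + 3) + F.rad * (j + 1) + Ls)
        (show 0 < levels e + 1 by omega)
      omega) _)) hfib)
    (nE := 2 ^ ((4 * e + 1) * h)) hfib (rare_num (by omega) hσh) hXne
  have hη := eta_ge (J := levels e + 1) (E0 := F.E * (j + 1)) hσh (by omega) hTot hbsum
  have hX' : 0 < (levels e + 1) * (F.X * (j + 1) - 1) := by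
    have hk : 0 < kappa A e := by simp [kappa]
    have : 0 < kappa A e * h := Nat.mul_pos hk (by omega)
    exact Nat.mul_pos (Nat.succ_pos _) (by omega)
  rw [← mul_assoc] at hη
  rcases Nat.eq_zero_or_pos a with rfl | ha
  · exfalso
    have hE : F.E = 0 := by
      rw [zero_mul, Nat.le_zero, mul_eq_zero] at hF
      rcases hF with h' | h'
      · exact h'
      · simp [kappa] at h'
    simp only [hE, mul_zero, zero_mul, zero_add] at hη
    have hlt : (4 * e + 2) * h < (levels e + 1) * h :=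
      Nat.mul_lt_mul_of_pos_right (by simp [levels]; omega) (by omega)
    obtain ⟨hle, -⟩ := fam_of_blocks (Q := 1) (a := 0) h0 h1 hcb hcode hmem hb0 hb hX' hbsm hη
      (by rw [Nat.sub_eq_zero_of_le hlt.le]; simp)
    omega
  refine ⟨a - 1, by omega, (fam_of_blocks h0 h1 hcb hcode hmem hb0 hb hX' hbsm hη ?_).2⟩
  exact exponent_step (J := levels e + 1) (κ := kappa A e) (by simp [levels]) (by simp [kappa]) hF ha
    hj1 hj2 (le_trans (by omega) hh)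

/-- Sublinear mass of polynomially many points. -/
theorem massLe (hS : Subgroup.closure (S : Set Γ) = ⊤) (D : Dec H) (hd : 0 < d) {C e : ℕ}
    (hg : KerGrowth π S C e) (h0 : 0 ≤ p) (h1 : p ≤ 1) (hcb : CodeBd π S p) {c : ℝ} (hc0 : 0 < c)
    (hc : ∀ v, ∃ k : H, π k = gv v ∧ c ≤ tau S p (k : Γ)) (hcr : ∀ r ∈ D.R, c ≤ tau S p r⁻¹) :
    MassLe S p := by
  intro A
  obtain ⟨a, ha⟩ := exists_init (π := π) hS h0 h1 hd hc0 hc (2 * kappa A e)
  induction a using Nat.strong_induction_on with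
  | _ a ih =>
    obtain ⟨F, hF⟩ := ha
    have hstep := mass_step hS D hd hg h0 h1 hcb hc0 hc hcr A F hF
    by_cases hnew : ∃ a', a' < a ∧ HasFam π S p (2 * kappa A e) a'
    · obtain ⟨a', hlt, h'⟩ := hnew
      exact ih a' hlt h'
    · exact hstep.mono fun h hh => hh.resolve_right hnew

end Vale.Agent.P165FreeProd.Ker
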