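import Vale.Agent.P165FreeProd.Ker.Group
import Vale.Agent.P165FreeProd.Cayley

/-!
# A product of free groups times a group of polynomial growth, with finite index
-/

namespace Vale.Agent.P165FreeProd.Ker

open Vale.Agent.P165
open scoped Pointwise

variable {d : ℕ} {n : Fin d → ℕ} {Γ : Type*} [Group Γ] [DecidableEq Γ]
  {N : Type*} [Group N] [DecidableEq N]

/-- Every element is a product of boundedly many elements of a symmetric generating set. -/
theorem exists_mem_pow {B : Finset N} (hinv : ∀ x ∈ B, x⁻¹ ∈ B)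
    (hgen : Subgroup.closure (B : Set N) = ⊤) (x : N) : ∃ L : ℕ, x ∈ B ^ L := by
  have hB : B⁻¹ = B := by
    ext y
    rw [Finset.mem_inv']
    exact ⟨fun h => inv_inv y ▸ hinv _ h, hinv y⟩
  have hx : x ∈ Subgroup.closure (B : Set N) := by rw [hgen]; trivial
  induction hx using Subgroup.closure_induction with
  | mem y hy => exact ⟨1, by rw [pow_one]; exact hy⟩
  | one => exact ⟨0, by simp⟩
  | mul a b _ _ ha hb =>
    obtain ⟨i, hi⟩ := ha
    obtain ⟨j, hj⟩ := hb
    exact ⟨i + j, by rw [pow_add]; exact Finset.mul_mem_mul hi hj⟩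
  | inv a _ ha =>
    obtain ⟨i, hi⟩ := ha
    refine ⟨i, ?_⟩
    have h := Finset.inv_mem_inv hi
    rwa [← inv_pow, hB] at h

/-- A subgroup of finite index isomorphic to a product of free groups and a group of polynomial
growth gives a projection with kernel of polynomial growth, for every generating set. -/
theorem exists_kerGrowth (S : Finset Γ) (emb : Prd n × N →* Γ) (hinj : Function.Injective emb)
    (hfi : emb.range.FiniteIndex) {T : Finset N} (hT : Subgroup.closure (T : Set N) = ⊤) {C e : ℕ}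
    (hgrow : ∀ m : ℕ, ((insert 1 (T ∪ T⁻¹)) ^ m).card ≤ C * (m + 1) ^ e) :
    ∃ π : emb.range →* Prd n, Function.Surjective π ∧ ∃ C' : ℕ, KerGrowth π S C' e := by
  set φ := MonoidHom.ofInjective hinj
  obtain ⟨D⟩ := exists_dec (H := emb.range) hfi
  set π : emb.range →* Prd n := (MonoidHom.fst (Prd n) N).comp φ.symm.toMonoidHom
  set κ : emb.range →* N := (MonoidHom.snd (Prd n) N).comp φ.symm.toMonoidHom
  refine ⟨π, fun f => ⟨φ (f, 1), by simp [π]⟩, ?_⟩
  set B : Finset N := insert 1 (T ∪ T⁻¹)
  have h1B : (1 : N) ∈ B := Finset.mem_insert_self _ _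
  have hBinv : ∀ x ∈ B, x⁻¹ ∈ B := by
    intro x hx
    simp only [B, Finset.mem_insert, Finset.mem_union, Finset.mem_inv'] at hx ⊢
    rcases hx with rfl | hx | hx
    exacts [Or.inl inv_one, Or.inr (Or.inr (by simpa using hx)), Or.inr (Or.inl hx)]
  have hgen : Subgroup.closure (B : Set N) = ⊤ :=
    top_le_iff.1 (hT ▸ Subgroup.closure_mono fun x hx => Finset.mem_coe.2
      (Finset.mem_insert_of_mem (Finset.mem_union_left _ hx)))
  choose L hL using exists_mem_pow hBinv hgen
  have hmono : ∀ {a b : ℕ}, a ≤ b → B ^ a ⊆ B ^ b := fun h => Finset.pow_subset_pow_right h1B h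
  set A := {1} ∪ (D.R ×ˢ gens S).image fun q => q.1 * q.2
  set M := A.sup fun x => L (κ (D.hc x))
  have hA : ∀ x ∈ A, κ (D.hc x) ∈ B ^ M := fun x hx =>
    hmono (Finset.le_sup (f := fun x => L (κ (D.hc x))) hx) (hL _)
  have hlip : ∀ m, ∀ x ∈ Ball S m, κ (D.hc x) ∈ B ^ (M * (m + 1)) := by
    intro m
    induction m with
    | zero =>
      intro x hx
      rw [Ball, reach, Finset.mem_singleton] at hx
      subst hx
      simpa using hA 1 (Finset.mem_union_left _ (Finset.mem_singleton_self 1))
    | succ m ih =>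
      intro x hx
      rcases (mem_Ball_succ S).1 hx with h | ⟨y, hy, s, hs, rfl⟩
      · exact hmono (Nat.mul_le_mul_left _ (Nat.le_succ _)) (ih x h)
      · have e : y * s = (D.hc y : Γ) * (D.rc y * s) := by rw [← mul_assoc, D.eq]
        rw [e, D.equiv, _root_.map_mul, Nat.mul_succ M (m + 1), pow_add]
        exact Finset.mul_mem_mul (ih y hy) (hA _ (Finset.mem_union_right _
          (Finset.mem_image.2 ⟨(D.rc y, s), Finset.mem_product.2 ⟨D.mem y, hs⟩, rfl⟩)))
  refine ⟨C * (3 * M + 1) ^ e, fun m F hF => ?_⟩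
  have hinjF : Set.InjOn (fun h : emb.range => κ h) F := by
    intro a ha b hb hab
    refine φ.symm.injective (Prod.ext ?_ hab)
    exact ((hF a ha).1).trans (hF b hb).1.symm
  have hmaps : F.image (fun h : emb.range => κ h) ⊆ B ^ (M * (m + 1) + M) := by
    intro k hk
    obtain ⟨h, hh, rfl⟩ := Finset.mem_image.1 hk
    have h2 := hlip m _ (hF h hh).2
    rw [D.hc_coe, _root_.map_mul] at h2
    have h3 : (κ (D.hc 1))⁻¹ ∈ B ^ M := by
      have hB : B⁻¹ = B := by
        ext y
        rw [Finset.mem_inv']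
        exact ⟨fun h => inv_inv y ▸ hBinv _ h, hBinv y⟩
      have := Finset.inv_mem_inv (hA 1 (Finset.mem_union_left _ (Finset.mem_singleton_self 1)))
      rwa [← inv_pow, hB] at this
    rw [pow_add]
    simpa using Finset.mul_mem_mul h2 h3
  rw [← Finset.card_image_of_injOn hinjF]
  refine (Finset.card_le_card hmaps).trans ((hgrow _).trans ?_)
  rw [mul_assoc, ← mul_pow]
  refine Nat.mul_le_mul_left _ (Nat.pow_le_pow_left ?_ e)
  nlinarith [Nat.zero_le (M * m), Nat.zero_le m, Nat.zero_le M]

end Vale.Agent.P165FreeProd.Ker
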