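import Vale.Agent.P165FreeProd.Ker.Main
import Vale.Agent.P165FreeProd.Ker.Product
import Vale.Agent.P165FreeProd.Ker.Mass

/-!
# Products of free groups and groups of polynomial growth
-/

namespace Vale.Agent.P165FreeProd.Ker

open Vale.Agent.P165
open scoped Pointwise

universe u

variable {d : ℕ} {n : Fin d → ℕ} {Γ : Type u} [Group Γ] [DecidableEq Γ] [Countable Γ]
  {N : Type*} [Group N] [DecidableEq N]

/-- The main theorem: a finite-index subgroup with a homomorphism into a product of free groups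
hitting the elementary diagonal elements, with kernel of polynomial growth. -/
theorem pc_lt_pu_kernel (hd : 0 < d) {S : Finset Γ} (hS : Subgroup.closure (S : Set Γ) = ⊤)
    (H : Subgroup Γ) (hfi : H.FiniteIndex) (π : H →* Prd n) (hgv : ∀ v, ∃ h : H, π h = gv v)
    {C e : ℕ} (hg : KerGrowth π S C e) :
    pc (SimpleGraph.mulCayley (S : Set Γ)) < pu (SimpleGraph.mulCayley (S : Set Γ)) := by
  obtain ⟨D⟩ := exists_dec (H := H) hfi
  exact pc_lt_pu_of_mass hd hS D hgv hg fun h0 h1 hcb hc0 hc hcr =>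
    massLe hS D hd hg h0 h1 hcb hc0 hc hcr

/-- The product form of the main theorem. -/
theorem pc_lt_pu_product (hd : 0 < d) {S : Finset Γ}
    (hS : Subgroup.closure (S : Set Γ) = ⊤) (emb : Prd n × N →* Γ) (hinj : Function.Injective emb)
    (hfi : emb.range.FiniteIndex) {T : Finset N} (hT : Subgroup.closure (T : Set N) = ⊤) {C e : ℕ}
    (hgrow : ∀ m : ℕ, ((insert 1 (T ∪ T⁻¹)) ^ m).card ≤ C * (m + 1) ^ e) :
    pc (SimpleGraph.mulCayley (S : Set Γ)) < pu (SimpleGraph.mulCayley (S : Set Γ)) := by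
  obtain ⟨π, hπ, C', hg⟩ := exists_kerGrowth S emb hinj hfi hT hgrow
  exact pc_lt_pu_kernel hd hS emb.range hfi π (fun v => hπ (gv v)) hg

end Vale.Agent.P165FreeProd.Ker
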