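import Vale.Agent.P165FreeProd.Ker.Cor

/-!
# Subgroups of products of free groups, for instance fibre products
-/

namespace Vale.Agent.P165FreeProd.Ker

open Vale.Agent.P165

variable {d : ℕ} {n : Fin d → ℕ}

/-- Subgroups of a product of free groups containing the elementary diagonal elements. -/
theorem pc_lt_pu_subgroup (hd : 0 < d) (L : Subgroup (Prd n)) [Countable L]
    (hgv : ∀ v, (gv v : Prd n) ∈ L) {S : Finset L} (hS : Subgroup.closure (S : Set L) = ⊤) :
    pc (SimpleGraph.mulCayley (S : Set L)) < pu (SimpleGraph.mulCayley (S : Set L)) := by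
  refine pc_lt_pu_kernel (C := 1) (e := 0) hd hS ⊤ inferInstance
    (L.subtype.comp (⊤ : Subgroup L).subtype) (fun v => ⟨⟨⟨gv v, hgv v⟩, trivial⟩, rfl⟩) ?_
  intro m F hF
  rw [pow_zero, mul_one]
  refine Finset.card_le_one.2 fun a ha b hb => ?_
  have h := (hF a ha).1.trans (hF b hb).1.symm
  exact Subtype.ext (Subtype.ext h)

/-- The exponent sum of a word. -/
def esum (r : ℕ) : FreeGroup (Fin r) →* Multiplicative ℤ :=
  FreeGroup.lift fun _ => Multiplicative.ofAdd (1 : ℤ)

/-- The fibre product over the exponent sums contains the elementary diagonal elements. -/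
theorem gv_mem_fibreProduct (v : Fin d → Bool) (i j : Fin d) :
    esum _ ((gv v : Prd n) i) = esum _ ((gv v : Prd n) j) := by
  simp [esum, gv]

end Vale.Agent.P165FreeProd.Ker
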