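import Vale.Agent.P165FreeProd.Ker.Weight

/-!
# The exit kernel of a ball has small convolution norm at the critical value
-/

namespace Vale.Agent.P165FreeProd.Ker

open Vale.Agent.P165 Filter Topology

variable {d : ℕ} {n : Fin d → ℕ} {Γ : Type*} [Group Γ] [DecidableEq Γ] {H : Subgroup Γ}
  (D : Dec H) (π : H →* Prd n) (S : Finset Γ)

open Classical in
/-- The points of a ball with a neighbour outside. -/
noncomputable def win (i : ℕ) : Finset Γ :=
  (Ball S i).filter fun x => ∃ s ∈ gens S, x * s ∉ Ball S i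

theorem not_mem_Ball_of_win {i : ℕ} {x : Γ} (hx : x ∈ win S i) {j : ℕ} (hj : j < i) :
    x ∉ Ball S j := fun h => by
  classical
  obtain ⟨-, s, hs, hout⟩ := Finset.mem_filter.1 hx
  exact hout (Ball_mono S hj ((mem_Ball_succ S).2 (Or.inr ⟨x, h, s, hs, rfl⟩)))

/-- Connection probability inside a ball. -/
noncomputable def val (i : ℕ) (p : ℝ) (x : Γ) : ℝ := tauS (cnb S) (Ball S i) p 1 x

/-- The constant of the convolution inequality on a ball. -/
noncomputable def Dec.convC (C e M i : ℕ) : ℝ :=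
  ((D.R.card : ℝ) * D.R.card * ((((M * (i + 1) : ℕ) : ℝ) + 1) ^ d *
    (((M * (i + 1) : ℕ) : ℝ) + 1) ^ d)) ^ 2 * ((C : ℝ) * (2 * (i : ℝ) + 1) ^ e)

/-- A bound on the squared norm of the exit kernel. -/
noncomputable def Dec.kap (C e M i : ℕ) (Hs : Finset Γ) (p : ℝ) : ℝ :=
  4 * ((gens S).card : ℝ) ^ 2 * ((∑ x ∈ Hs, val S i p x) ^ 2 +
    D.convC (d := d) C e M i * ∑ x ∈ win S i \ Hs, val S i p x ^ 2)

theorem continuous_kap (C e M i : ℕ) (Hs : Finset Γ) :
    Continuous (D.kap (d := d) S C e M i Hs) := by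
  have hc : ∀ x, Continuous fun p => val S i p x := fun x => continuous_Pr _ _
  unfold Dec.kap
  fun_prop

variable {D π S} {p : ℝ}

/-- A kernel with norm below one keeps the two-point function square summable. -/
theorem sq_le_of_kap {C e M0 : ℕ} (hg : KerGrowth π S C e)
    (hM0 : ∀ L, ∀ x ∈ Ball S L, size (D.fc π x) ≤ M0 * (L + 1)) (h0 : 0 ≤ p) (h1 : p ≤ 1) {i : ℕ}
    {Hs : Finset Γ} (hH : Hs ⊆ win S i) (hk : D.kap (d := d) S C e M0 i Hs p < 1)
    (F : Finset Γ) :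
    ∑ x ∈ F, tau S p x ^ 2 ≤ 2 * ((Ball S i).card : ℝ) / (1 - D.kap (d := d) S C e M0 i Hs p) := by
  classical
  refine le_of_tendsto (tendsto_finsetSum F fun x _ => (tendsto_tau S h0 h1 x).pow 2)
    (Eventually.of_forall fun Λ => ?_)
  set N := Λ.card
  set a := aN S p N
  set U := reach (cnb S) N 1 ∪ F
  set M := ∑ z ∈ U, a z ^ 2
  set T := gens S
  set W := win S i
  set f := val S i p
  set P : ℝ := D.convC (d := d) C e M0 i
  have hf : ∀ x, 0 ≤ f x := fun x => tauS_nonneg h0 h1 _ _ _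
  have ha : ∀ x, 0 ≤ a x := fun x => aN_nonneg S h0 h1 N x
  have hsupp : ∀ y, a y ≠ 0 → y ∈ U := fun y hy =>
    Finset.mem_union_left _ (by_contra fun hh => hy (aN_eq_zero S h0 h1 hh))
  have hMg : ∀ g : Γ, ∑ z ∈ U, a (g * z) ^ 2 ≤ M := by
    intro g
    rw [← Finset.sum_image (f := fun y => a y ^ 2) (g := (g * ·))
      fun a _ b _ hab => mul_left_cancel hab]
    refine (Finset.sum_le_sum_of_subset_of_nonneg (t := U.image (g * ·) ∪ U)
      Finset.subset_union_left fun v _ _ => sq_nonneg _).trans (le_of_eq ?_)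
    exact (Finset.sum_subset Finset.subset_union_right fun v _ hv => by
      rw [by_contra fun h => hv (hsupp v h)]; ring).symm
  -- the first exit
  have hstep : ∀ z, a z ≤ (if z ∈ Ball S i then 1 else 0) +
      ∑ s ∈ T, ((∑ x ∈ Hs, f x * a (s⁻¹ * (x⁻¹ * z))) +
        ∑ x ∈ W \ Hs, f x * a (s⁻¹ * (x⁻¹ * z))) := by
    intro z
    refine (aN_exit S h0 h1 N (one_mem_Ball S i) z).trans (add_le_add le_rfl ?_)
    refine (mul_le_of_le_one_left (Finset.sum_nonneg fun x _ => mul_nonneg (hf x)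
      (Finset.sum_nonneg fun s _ => ha _)) h1).trans ?_
    have hsplit : ∀ s, (∑ x ∈ Hs, f x * a (s⁻¹ * (x⁻¹ * z))) +
        ∑ x ∈ W \ Hs, f x * a (s⁻¹ * (x⁻¹ * z)) = ∑ x ∈ W, f x * a (s⁻¹ * (x⁻¹ * z)) := fun s => by
      rw [add_comm, Finset.sum_sdiff hH]
    rw [Finset.sum_congr rfl fun s _ => hsplit s, Finset.sum_comm]
    simp only [W, win]
    rw [Finset.sum_filter]
    refine Finset.sum_le_sum fun x _ => ?_
    rw [Finset.mul_sum]
    split_ifs with hx
    · simp only [mul_inv_rev, mul_assoc]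
      exact Finset.sum_le_sum_of_subset_of_nonneg (Finset.filter_subset _ _)
        fun s _ _ => mul_nonneg (hf x) (ha _)
    · simp only [not_exists, not_and, not_not] at hx
      rw [Finset.filter_false_of_mem fun s hs => not_not.2 (hx s hs), Finset.sum_empty]
  -- the two parts
  have hA : ∀ s, ∑ z ∈ U, (∑ x ∈ Hs, f x * a (s⁻¹ * (x⁻¹ * z))) ^ 2 ≤ (∑ x ∈ Hs, f x) ^ 2 * M := by
    intro s
    calc ∑ z ∈ U, (∑ x ∈ Hs, f x * a (s⁻¹ * (x⁻¹ * z))) ^ 2
        ≤ ∑ z ∈ U, (∑ x ∈ Hs, f x) * ∑ x ∈ Hs, f x * a (s⁻¹ * (x⁻¹ * z)) ^ 2 :=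
          Finset.sum_le_sum fun z _ => Finset.sum_sq_le_sum_mul_sum_of_sq_le_mul _
            (fun x _ => hf x) (fun x _ => mul_nonneg (hf x) (sq_nonneg _))
            fun x _ => le_of_eq (by ring)
      _ = (∑ x ∈ Hs, f x) * ∑ x ∈ Hs, f x * ∑ z ∈ U, a ((s⁻¹ * x⁻¹) * z) ^ 2 := by
          rw [← Finset.mul_sum, Finset.sum_comm]
          simp only [Finset.mul_sum, mul_assoc]
      _ ≤ (∑ x ∈ Hs, f x) * ∑ x ∈ Hs, f x * M := mul_le_mul_of_nonneg_left
          (Finset.sum_le_sum fun x _ => mul_le_mul_of_nonneg_left (hMg _) (hf x))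
          (Finset.sum_nonneg fun x _ => hf x)
      _ = _ := by rw [← Finset.sum_mul]; ring
  have hB : ∀ s, ∑ z ∈ U, (∑ x ∈ W \ Hs, f x * a (s⁻¹ * (x⁻¹ * z))) ^ 2 ≤
      P * ((∑ x ∈ W \ Hs, f x ^ 2) * M) := by
    intro s
    have h := conv_le D π hg hM0 (L := i) (A := W \ Hs) (fun x hx =>
      (Finset.mem_filter.1 (Finset.mem_sdiff.1 hx).1).1) U (U.image (s * ·)) f
      (fun y => a (s⁻¹ * y))
    rw [Finset.sum_image (f := fun y => a (s⁻¹ * y) ^ 2) fun a _ b _ hab => mul_left_cancel hab]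
      at h
    simp only [inv_mul_cancel_left] at h
    refine le_trans (le_of_eq (Finset.sum_congr rfl fun z _ => ?_)) h
    rw [Finset.sum_filter_of_ne]
    intro x _ hne
    exact Finset.mem_image.2 ⟨s⁻¹ * (x⁻¹ * z), hsupp _ (right_ne_zero_of_mul hne), by group⟩
  have hM : M ≤ 2 * ((Ball S i).card : ℝ) + D.kap (d := d) S C e M0 i Hs p * M := by
    have hcard : (0 : ℝ) ≤ T.card := Nat.cast_nonneg _
    have hz : ∀ z, a z ^ 2 ≤ 2 * (if z ∈ Ball S i then (1 : ℝ) else 0) +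
        4 * (T.card : ℝ) * ∑ s ∈ T, ((∑ x ∈ Hs, f x * a (s⁻¹ * (x⁻¹ * z))) ^ 2 +
          (∑ x ∈ W \ Hs, f x * a (s⁻¹ * (x⁻¹ * z))) ^ 2) := by
      intro z
      set u : ℝ := if z ∈ Ball S i then (1 : ℝ) else 0
      set v := fun s => (∑ x ∈ Hs, f x * a (s⁻¹ * (x⁻¹ * z))) +
        ∑ x ∈ W \ Hs, f x * a (s⁻¹ * (x⁻¹ * z))
      have hu : u ^ 2 = u := by simp only [u]; split_ifs <;> norm_num
      have h2 : (∑ s ∈ T, v s) ^ 2 ≤ T.card * ∑ s ∈ T, v s ^ 2 := sq_sum_le_card_mul_sum_sq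
      have h3 : ∑ s ∈ T, v s ^ 2 ≤ ∑ s ∈ T, 2 * ((∑ x ∈ Hs, f x * a (s⁻¹ * (x⁻¹ * z))) ^ 2 +
          (∑ x ∈ W \ Hs, f x * a (s⁻¹ * (x⁻¹ * z))) ^ 2) :=
        Finset.sum_le_sum fun s _ => add_sq_le
      rw [← Finset.mul_sum] at h3
      have h4 : a z ^ 2 ≤ (u + ∑ s ∈ T, v s) ^ 2 := pow_le_pow_left₀ (ha z) (hstep z) 2
      have h5 := add_sq_le (a := u) (b := ∑ s ∈ T, v s)
      nlinarith [mul_le_mul_of_nonneg_left h3 hcard]
    refine (Finset.sum_le_sum fun z _ => hz z).trans ?_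
    rw [Finset.sum_add_distrib, ← Finset.mul_sum, ← Finset.mul_sum]
    refine add_le_add (mul_le_mul_of_nonneg_left ?_ (by norm_num)) ?_
    · rw [Finset.sum_boole]
      exact Nat.cast_le.2 (Finset.card_le_card fun v hv => (Finset.mem_filter.1 hv).2)
    rw [Finset.sum_comm]
    refine (mul_le_mul_of_nonneg_left (Finset.sum_le_sum (g := fun _ =>
      (∑ x ∈ Hs, f x) ^ 2 * M + P * ((∑ x ∈ W \ Hs, f x ^ 2) * M)) fun s _ => ?_)
      (by positivity)).trans (le_of_eq ?_)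
    · rw [Finset.sum_add_distrib]
      exact add_le_add (hA s) (hB s)
    · rw [Finset.sum_const, nsmul_eq_mul]
      simp only [Dec.kap, T, f, P, W]
      ring
  rw [le_div_iff₀ (by linarith)]
  refine le_trans (mul_le_mul_of_nonneg_right ((Finset.sum_le_sum fun x _ => pow_le_pow_left₀
    (tauS_nonneg h0 h1 _ _ _) (tauS_le_aN S h0 h1 Λ le_rfl x) 2).trans
    (Finset.sum_le_sum_of_subset_of_nonneg (t := U) Finset.subset_union_right
      fun v _ _ => sq_nonneg _)) (by linarith)) ?_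
  change M * (1 - D.kap (d := d) S C e M0 i Hs p) ≤ _
  linarith

/-- Some ball has an exit kernel of small norm. -/
theorem exists_kap_lt (C e M : ℕ) (h0 : 0 ≤ p) (h1 : p ≤ 1) (hmass : MassLe S p) {Y : ℝ}
    (hY : 0 ≤ Y) {P : ℕ}
    (hcrude : ∀ L, ∀ V : Finset Γ, V ⊆ Ball S L → ∑ x ∈ V, tau S p x ≤ Y * ((L : ℝ) + 1) ^ P) :
    ∃ i Hs, Hs ⊆ win S i ∧ D.kap (d := d) S C e M i Hs p < 1 := by
  classical
  obtain ⟨a1, ha1⟩ : ∃ a1 : ℕ, Y ≤ 2 ^ a1 :=
    (pow_unbounded_of_one_lt _ one_lt_two).imp fun _ h => h.le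
  set A := 4 * d + e + P + 1
  set Z : ℝ := ((D.R.card : ℝ) * D.R.card) ^ 2 * (2 * (M : ℝ) + 1) ^ (4 * d) * C * 4 ^ e *
    (Y * 2 ^ P)
  set c4 : ℝ := 4 * ((gens S).card : ℝ) ^ 2
  have t1 : Tendsto (fun h : ℕ => c4 * (1 + Z) / (2 : ℝ) ^ h) atTop (𝓝 0) := by
    have := (tendsto_pow_atTop_nhds_zero_of_lt_one (by norm_num : (0 : ℝ) ≤ 2⁻¹)
      (by norm_num)).const_mul (c4 * (1 + Z))
    simpa [div_eq_mul_inv, ← inv_pow] using this
  obtain ⟨h, hmassh, hsmall, hh⟩ :=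
    ((hmass (a1 + 6 * P + 5 * A)).and ((t1.eventually (gt_mem_nhds one_pos)).and
      (eventually_ge_atTop 1))).exists
  set G := 2 ^ (4 * h)
  set g : ℝ := (G : ℝ) + 1
  have g1 : (1 : ℝ) ≤ g := by simp [g]
  set Hf : ℕ → Finset Γ := fun i => (win S i).filter fun x => 1 < val S i p x * g ^ A
  set I := Finset.Ioc G (2 * G)
  set U := I.biUnion Hf
  have hv : ∀ i x, 0 ≤ val S i p x := fun i x => tauS_nonneg h0 h1 _ _ _
  have hvt : ∀ i x, val S i p x ≤ tau S p x := fun i x => tauS_le_tau S h0 h1 _ x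
  have hwin : ∀ i, ∀ x ∈ win S i, x ∈ Ball S i := fun i x hx => (Finset.mem_filter.1 hx).1
  have hdisj : (I : Set ℕ).PairwiseDisjoint Hf := by
    intro i _ j _ hne
    refine Finset.disjoint_left.2 fun x hx hx' => ?_
    have hxi := (Finset.mem_filter.1 hx).1
    have hxj := (Finset.mem_filter.1 hx').1
    rcases lt_or_gt_of_ne hne with hlt | hlt
    · exact not_mem_Ball_of_win S hxj hlt (hwin i x hxi)
    · exact not_mem_Ball_of_win S hxi hlt (hwin j x hxj)
  have hUball : U ⊆ Ball S (2 * G) := Finset.biUnion_subset.2 fun i hi x hx =>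
    Ball_mono S (Finset.mem_Ioc.1 hi).2 (hwin i x (Finset.mem_filter.1 hx).1)
  have hG5 : g ≤ (2 : ℝ) ^ (5 * h) := by
    have h2 : G + 1 ≤ 2 ^ (5 * h) := by
      have : 2 * G ≤ 2 ^ (5 * h) := by
        rw [show G = 2 ^ (4 * h) from rfl, ← pow_succ']
        exact Nat.pow_le_pow_right (by norm_num) (by omega)
      have := Nat.two_pow_pos (4 * h)
      omega
    simp only [g]
    exact_mod_cast h2
  have hG6 : ((2 * G : ℕ) : ℝ) + 1 ≤ (2 : ℝ) ^ (6 * h) := by
    have h2 : 2 * G + 1 ≤ 2 ^ (6 * h) := by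
      have : 4 * G ≤ 2 ^ (6 * h) := by
        rw [show (4 : ℕ) = 2 ^ 2 by norm_num, show G = 2 ^ (4 * h) from rfl, ← pow_add]
        exact Nat.pow_le_pow_right (by norm_num) (by omega)
      have := Nat.two_pow_pos (4 * h)
      omega
    exact_mod_cast h2
  have hcard : U.card ≤ 2 ^ ((a1 + 6 * P + 5 * A) * h) := by
    have h1' : (U.card : ℝ) ≤ (∑ x ∈ U, tau S p x) * g ^ A := by
      rw [Finset.cast_card, Finset.sum_mul]
      refine Finset.sum_le_sum fun x hx => ?_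
      obtain ⟨i, -, hxi⟩ := Finset.mem_biUnion.1 hx
      exact (Finset.mem_filter.1 hxi).2.le.trans
        (mul_le_mul_of_nonneg_right (hvt i x) (by positivity))
    have h2' : (U.card : ℝ) ≤ (2 : ℝ) ^ ((a1 + 6 * P + 5 * A) * h) := by
      refine h1'.trans ((mul_le_mul ((hcrude _ U hUball).trans (mul_le_mul ha1
        (pow_le_pow_left₀ (by positivity) hG6 _) (by positivity) (by positivity)))
        (pow_le_pow_left₀ (by positivity) hG5 _) (by positivity) (by positivity)).trans ?_)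
      rw [← pow_mul, ← pow_mul, ← pow_add, ← pow_add]
      refine pow_le_pow_right₀ one_le_two ?_
      have : a1 ≤ a1 * h := Nat.le_mul_of_pos_right _ hh
      rw [add_mul, add_mul, mul_right_comm 6 h P, mul_right_comm 5 h A]
      omega
    exact_mod_cast h2'
  have hUG : U ⊆ Ball S (2 ^ (4 * h + 2)) := hUball.trans (Ball_mono S (by
    rw [pow_add]; simp only [G]; omega))
  have hsum : ∑ i ∈ I, ∑ x ∈ Hf i, val S i p x ≤ (2 : ℝ) ^ (3 * h) := by
    refine le_trans ?_ (hmassh U hUG hcard)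
    rw [Finset.sum_biUnion hdisj]
    exact Finset.sum_le_sum fun i _ => Finset.sum_le_sum fun x _ => hvt i x
  obtain ⟨i, hiI, hi⟩ : ∃ i ∈ I, ∑ x ∈ Hf i, val S i p x ≤ (2 : ℝ) ^ (3 * h) / G := by
    refine Finset.exists_le_of_sum_le (Finset.nonempty_Ioc.2 (by
      have := Nat.two_pow_pos (4 * h); omega)) ?_
    rw [Finset.sum_const, Nat.card_Ioc, nsmul_eq_mul, show 2 * G - G = G by omega,
      mul_div_cancel₀ _ (by positivity)]
    exact hsum
  obtain ⟨-, hi2⟩ := Finset.mem_Ioc.1 hiI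
  refine ⟨i, Hf i, Finset.filter_subset _ _, ?_⟩
  have hGh : (2 : ℝ) ^ (3 * h) / G = 1 / (2 : ℝ) ^ h := by
    simp only [G]
    push_cast
    rw [div_eq_div_iff (by positivity) (by positivity), ← pow_add, one_mul]
    congr 1
    omega
  have hheavy : (∑ x ∈ Hf i, val S i p x) ^ 2 ≤ 1 / (2 : ℝ) ^ h := by
    refine (pow_le_pow_left₀ (Finset.sum_nonneg fun x _ => hv i x) (hi.trans_eq hGh) 2).trans ?_
    exact pow_le_of_le_one (by positivity)
      ((div_le_one (by positivity)).2 (one_le_pow₀ one_le_two)) two_ne_zero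
  have hlight : (∑ x ∈ win S i \ Hf i, val S i p x ^ 2) * g ^ A ≤ Y * (2 * g) ^ P := by
    rw [Finset.sum_mul]
    have hi' : (i : ℝ) + 1 ≤ 2 * g := by
      have : (i : ℝ) ≤ 2 * G := by exact_mod_cast hi2
      simp only [g]
      linarith
    refine le_trans ?_ ((hcrude i (win S i \ Hf i) (Finset.sdiff_subset.trans (hwin i))).trans
      (mul_le_mul_of_nonneg_left (pow_le_pow_left₀ (by positivity) hi' _) hY))
    refine Finset.sum_le_sum fun x hx => ?_
    obtain ⟨hxW, hxH⟩ := Finset.mem_sdiff.1 hx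
    have : val S i p x * g ^ A ≤ 1 :=
      not_lt.1 fun hh => hxH (Finset.mem_filter.2 ⟨hxW, hh⟩)
    rw [pow_two, mul_assoc]
    exact (mul_le_of_le_one_right (hv i x) this).trans (hvt i x)
  have hconv : D.convC (d := d) C e M i ≤
      ((D.R.card : ℝ) * D.R.card) ^ 2 * (2 * (M : ℝ) + 1) ^ (4 * d) * C * 4 ^ e * g ^ (4 * d + e) := by
    have hi' : (i : ℝ) ≤ 2 * G := by exact_mod_cast hi2
    have M0 : (0 : ℝ) ≤ M := Nat.cast_nonneg _
    have a : (((M * (i + 1) : ℕ) : ℝ) + 1) ≤ (2 * (M : ℝ) + 1) * g := by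
      push_cast
      simp only [g]
      nlinarith
    have b : 2 * (i : ℝ) + 1 ≤ 4 * g := by simp only [g]; linarith
    calc D.convC (d := d) C e M i
        ≤ ((D.R.card : ℝ) * D.R.card *
            (((2 * (M : ℝ) + 1) * g) ^ d * ((2 * (M : ℝ) + 1) * g) ^ d)) ^ 2 *
          ((C : ℝ) * (4 * g) ^ e) := by
          unfold Dec.convC
          gcongr
      _ = _ := by simp only [mul_pow, pow_add, ← pow_mul]; ring
  have hrest : D.convC (d := d) C e M i * ∑ x ∈ win S i \ Hf i, val S i p x ^ 2 ≤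
      Z / (2 : ℝ) ^ h := by
    set light := ∑ x ∈ win S i \ Hf i, val S i p x ^ 2
    have hl0 : 0 ≤ light := Finset.sum_nonneg fun x _ => sq_nonneg _
    refine (mul_le_mul_of_nonneg_right hconv hl0).trans ?_
    have hgh : (2 : ℝ) ^ h ≤ g := by
      have : ((2 ^ h : ℕ) : ℝ) ≤ (G : ℝ) :=
        Nat.cast_le.2 (Nat.pow_le_pow_right (by norm_num) (by omega))
      push_cast at this
      simp only [g]
      linarith
    rw [le_div_iff₀ (by positivity)]
    refine (mul_le_mul_of_nonneg_left hgh (by positivity)).trans ?_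
    refine le_of_mul_le_mul_right ?_ (pow_pos (zero_lt_one.trans_le g1) P)
    calc _ = ((D.R.card : ℝ) * D.R.card) ^ 2 * (2 * (M : ℝ) + 1) ^ (4 * d) * C * 4 ^ e *
          (light * g ^ A) := by simp only [A, pow_add]; ring
      _ ≤ ((D.R.card : ℝ) * D.R.card) ^ 2 * (2 * (M : ℝ) + 1) ^ (4 * d) * C * 4 ^ e *
          (Y * (2 * g) ^ P) := mul_le_mul_of_nonneg_left hlight (by positivity)
      _ = _ := by simp only [Z, mul_pow]; ring
  refine lt_of_le_of_lt ?_ hsmall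
  unfold Dec.kap
  refine (mul_le_mul_of_nonneg_left (add_le_add hheavy hrest) (by positivity)).trans (le_of_eq ?_)
  simp only [c4]
  ring

end Vale.Agent.P165FreeProd.Ker
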