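import Vale.Agent.P165FreeProd.Ker.Weight

/-!
# Families of bridge blocks, their compounds, and separated subfamilies
-/

namespace Vale.Agent.P165FreeProd.Ker

open Vale.Agent.P165

variable {d : ℕ} {n : Fin d → ℕ} {Γ : Type*} [Group Γ] [DecidableEq Γ] {H : Subgroup Γ}
  (π : H →* Prd n) (S : Finset Γ)

/-- A code of blocks, realised inside a ball: mass `2 ^ (-E)`, each at most `2 ^ (-(E + X))`. -/
structure Fam (p : ℝ) where
  /-- the blocks -/
  V : Finset H
  /-- the radius -/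
  rad : ℕ
  /-- lower bounds of the connection probabilities -/
  b : H → ℝ
  /-- the deficit -/
  E : ℕ
  /-- the spread -/
  X : ℕ
  hX : 0 < X
  hcode : IsCode V fun h => π h
  hmem : ∀ v ∈ V, (v : Γ) ∈ Ball S rad
  hb0 : ∀ v, 0 ≤ b v
  hb : ∀ v ∈ V, b v ≤ tauS (cnb S) (Ball S rad) p 1 v
  hsmall : ∀ v ∈ V, b v ≤ (1 / 2) ^ (E + X)
  hsum : (1 / 2) ^ E ≤ ∑ v ∈ V, b v

/-- There is a family of exponent at most `a / Q`. -/
def HasFam (p : ℝ) (Q a : ℕ) : Prop := ∃ F : Fam π S p, F.E * Q ≤ a * F.X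

variable {π}

/-- The region of a compound. -/
def regL (R0 : ℕ) : List H → Finset Γ
  | [] => ∅
  | v :: l => Ball S R0 ∪ (regL R0 l).image ((v : Γ) * ·)

theorem mem_regL {R0 : ℕ} : ∀ {l : List H} {z : Γ}, z ∈ regL S R0 l →
    ∃ i, i < l.length ∧ ∃ u ∈ Ball S R0, ((l.take i).prod : H) * u = z
  | [], z, h => by simp [regL] at h
  | v :: l, z, h => by
    rw [regL, Finset.mem_union] at h
    rcases h with h | h
    · exact ⟨0, by simp, z, h, by simp⟩
    · obtain ⟨y, hy, rfl⟩ := Finset.mem_image.1 h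
      obtain ⟨i, hi, u, hu, rfl⟩ := mem_regL hy
      exact ⟨i + 1, by simpa using hi, u, hu, by
        simp [List.take_succ_cons, List.prod_cons, mul_assoc]⟩

theorem prod_mem_Ball {R0 : ℕ} : ∀ (l : List H), (∀ v ∈ l, (v : Γ) ∈ Ball S R0) →
    ((l.prod : H) : Γ) ∈ Ball S (R0 * l.length)
  | [], _ => by simp [one_mem_Ball]
  | v :: l, h => by
    rw [List.prod_cons, Subgroup.coe_mul, List.length_cons,
      show R0 * (l.length + 1) = R0 + R0 * l.length by ring]
    exact mul_mem_Ball S (h v (by simp)) (prod_mem_Ball l fun w hw => h w (List.mem_cons_of_mem _ hw))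

theorem regL_subset {R0 : ℕ} {l : List H} (hl : ∀ v ∈ l, (v : Γ) ∈ Ball S R0) :
    regL S R0 l ⊆ Ball S (R0 * (l.length + 1)) := fun z hz => by
  obtain ⟨i, hi, u, hu, rfl⟩ := mem_regL S hz
  refine Ball_mono S ?_ (mul_mem_Ball S (prod_mem_Ball S (l.take i) fun v hv =>
    hl v (List.mem_of_mem_take hv)) hu)
  rw [Nat.mul_succ, List.length_take]
  exact Nat.add_le_add_right (Nat.mul_le_mul_left _ (min_le_right _ _)) _

theorem le_tauS_regL {p : ℝ} (h0 : 0 ≤ p) (h1 : p ≤ 1) {R0 : ℕ} {b : H → ℝ} :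
    ∀ (l : List H), (∀ v ∈ l, 0 ≤ b v ∧ b v ≤ tauS (cnb S) (Ball S R0) p 1 v) →
      (l.map b).prod ≤ tauS (cnb S) (regL S R0 l) p 1 ((l.prod : H) : Γ)
  | [], _ => by simp [regL, tauS_one_one]
  | v :: l, h => by
    rw [List.map_cons, List.prod_cons, List.prod_cons, Subgroup.coe_mul]
    refine le_trans ?_ (tauS_mul S h0 h1 (Ball S R0) (regL S R0 l) _ _)
    exact mul_le_mul (h v (by simp)).2 (le_tauS_regL h0 h1 l fun w hw =>
      h w (List.mem_cons_of_mem _ hw)) (List.prod_nonneg (fun a ha => by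
        obtain ⟨w, hw, rfl⟩ := List.mem_map.1 ha
        exact (h w (List.mem_cons_of_mem _ hw)).1)) (tauS_nonneg h0 h1 _ _ _)

variable {S}

open Classical in
/-- Compounds with small connection probability keep the mass. -/
theorem exists_light {p : ℝ} (h0 : 0 ≤ p) (h1 : p ≤ 1) (hcb : CodeBd π S p) (F : Fam π S p)
    {K j : ℕ} (hK : K + 1 ≤ F.X * (j + 1)) :
    ∃ L : Finset (Fin (j + 1) → H), (∀ f ∈ L, ∀ i, f i ∈ F.V) ∧
      IsCode L (fun f => π (List.ofFn f).prod) ∧
      (∀ f ∈ L, tauS (cnb S) (regL S F.rad (List.ofFn f)) p 1 ((List.ofFn f).prod : H) ≤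
        (1 / 2) ^ K) ∧
      (∀ f ∈ L, ∏ i, F.b (f i) ≤
        tauS (cnb S) (regL S F.rad (List.ofFn f)) p 1 ((List.ofFn f).prod : H)) ∧
      (∀ f ∈ L, ∏ i, F.b (f i) ≤ (1 / 2) ^ ((F.E + F.X) * (j + 1))) ∧
      (1 / 2 : ℝ) ^ (F.E * (j + 1) + 1) ≤ ∑ f ∈ L, ∏ i, F.b (f i) := by
  set all := Fintype.piFinset fun _ : Fin (j + 1) => F.V
  have hcode : IsCode all fun f => π (List.ofFn f).prod := by
    have h := F.hcode.pow j
    have e : ∀ f : Fin (j + 1) → H, (List.ofFn fun i => π (f i)).prod = π (List.ofFn f).prod :=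
      fun f => by rw [map_list_prod, List.map_ofFn]; rfl
    simpa only [e] using h
  set P : (Fin (j + 1) → H) → ℝ := fun f => ∏ i, F.b (f i)
  have hP : ∀ f ∈ all, P f ≤ (1 / 2) ^ ((F.E + F.X) * (j + 1)) := fun f hf => by
    refine (Finset.prod_le_prod (fun i _ => F.hb0 _) fun i _ =>
      F.hsmall _ (Fintype.mem_piFinset.1 hf i)).trans (le_of_eq ?_)
    rw [Finset.prod_const, Finset.card_univ, Fintype.card_fin, ← pow_mul]
  have hlow : ∀ f ∈ all, P f ≤
      tauS (cnb S) (regL S F.rad (List.ofFn f)) p 1 ((List.ofFn f).prod : H) := fun f hf => by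
    refine le_trans (le_of_eq ?_) (le_tauS_regL S h0 h1 (b := F.b) (List.ofFn f) fun v hv => ?_)
    · rw [List.map_ofFn, List.prod_ofFn]; rfl
    · obtain ⟨i, rfl⟩ := List.mem_ofFn.1 hv
      exact ⟨F.hb0 _, F.hb _ (Fintype.mem_piFinset.1 hf i)⟩
  set heavy := all.filter fun f =>
    ¬ tauS (cnb S) (regL S F.rad (List.ofFn f)) p 1 ((List.ofFn f).prod : H) ≤ (1 / 2) ^ K
  refine ⟨all.filter fun f =>
      tauS (cnb S) (regL S F.rad (List.ofFn f)) p 1 ((List.ofFn f).prod : H) ≤ (1 / 2) ^ K,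
    fun f hf => Fintype.mem_piFinset.1 (Finset.mem_filter.1 hf).1,
    ⟨fun f hf => hcode.pos f (Finset.mem_filter.1 hf).1, fun f hf g hg =>
      hcode.incomp f (Finset.mem_filter.1 hf).1 g (Finset.mem_filter.1 hg).1⟩,
    fun f hf => (Finset.mem_filter.1 hf).2, fun f hf => hlow f (Finset.mem_filter.1 hf).1,
    fun f hf => hP f (Finset.mem_filter.1 hf).1, ?_⟩
  have hheavy : heavy.card ≤ 2 ^ K := by
    have hinj : Set.InjOn (fun f => (List.ofFn f).prod) heavy := fun f hf g hg he =>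
      by_contra fun hne => incomp_ne (hcode.incomp f (Finset.mem_filter.1 hf).1 g
        (Finset.mem_filter.1 hg).1 hne) (congrArg π he)
    rw [← Finset.card_image_of_injOn hinj]
    refine code_card h0 h1 hcb _ ⟨fun x hx => ?_, fun x hx y hy hne => ?_⟩ fun x hx => ?_
    · obtain ⟨f, hf, rfl⟩ := Finset.mem_image.1 hx
      exact hcode.pos f (Finset.mem_filter.1 hf).1
    · obtain ⟨f, hf, rfl⟩ := Finset.mem_image.1 hx
      obtain ⟨g, hg, rfl⟩ := Finset.mem_image.1 hy
      exact hcode.incomp f (Finset.mem_filter.1 hf).1 g (Finset.mem_filter.1 hg).1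
        fun e => hne (e ▸ rfl)
    · obtain ⟨f, hf, rfl⟩ := Finset.mem_image.1 hx
      exact (not_le.1 (Finset.mem_filter.1 hf).2).le.trans (tauS_le_tau S h0 h1 _ _)
  have hhs : ∑ f ∈ heavy, P f ≤ (1 / 2 : ℝ) ^ (F.E * (j + 1) + 1) := by
    refine (Finset.sum_le_card_nsmul _ _ _ fun f hf => hP f (Finset.mem_filter.1 hf).1).trans ?_
    rw [nsmul_eq_mul]
    refine (mul_le_mul_of_nonneg_right (Nat.cast_le.2 hheavy) (by positivity)).trans ?_
    push_cast
    calc (2 : ℝ) ^ K * (1 / 2) ^ ((F.E + F.X) * (j + 1))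
        ≤ (2 : ℝ) ^ K * (1 / 2) ^ (F.E * (j + 1) + (K + 1)) :=
          mul_le_mul_of_nonneg_left (pow_le_pow_of_le_one (by norm_num) (by norm_num)
            (by rw [add_mul]; omega)) (by positivity)
      _ = ((2 : ℝ) * (1 / 2)) ^ K * (1 / 2) ^ (F.E * (j + 1) + 1) := by
          rw [mul_pow]; simp only [pow_add]; ring
      _ = _ := by norm_num
  have htot : (1 / 2 : ℝ) ^ (F.E * (j + 1)) ≤ ∑ f ∈ all, P f := by
    rw [pow_mul]
    refine (pow_le_pow_left₀ (by positivity) F.hsum _).trans (le_of_eq ?_)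
    rw [Finset.sum_pow']
  have hsplit := Finset.sum_filter_add_sum_filter_not all (fun f =>
    tauS (cnb S) (regL S F.rad (List.ofFn f)) p 1 ((List.ofFn f).prod : H) ≤ (1 / 2) ^ K) P
  have h2 : (1 / 2 : ℝ) ^ (F.E * (j + 1)) = 2 * (1 / 2) ^ (F.E * (j + 1) + 1) := by
    rw [pow_succ]; ring
  change _ + ∑ f ∈ heavy, P f = _ at hsplit
  linarith

/-- The first family: two letters. -/
theorem exists_init {p : ℝ} (hS : Subgroup.closure (S : Set Γ) = ⊤) (h0 : 0 ≤ p) (h1 : p ≤ 1)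
    (hd : 0 < d) {c : ℝ} (hc0 : 0 < c) (hc : ∀ v, ∃ h : H, π h = gv v ∧ c ≤ tau S p (h : Γ))
    (Q : ℕ) : ∃ a, HasFam π S p Q a := by
  classical
  obtain ⟨g0, hg0, hl0⟩ := hc fun _ => false
  obtain ⟨g1, hg1, hl1⟩ := hc fun _ => true
  obtain ⟨k, hk⟩ := exists_pow_lt_of_lt_one (half_pos hc0) (by norm_num : (1 / 2 : ℝ) < 1)
  obtain ⟨L, hL⟩ := exists_witness S hS h0 h1 {(g0 : Γ), (g1 : Γ)}
  obtain ⟨L', hL'⟩ := exists_radius hS {(g0 : Γ), (g1 : Γ)}
  have hne : g0 ≠ g1 := fun e => ltr_ne (n := n) ⟨0, hd⟩ (by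
    have h := congrArg (fun z : H => (π z ⟨0, hd⟩).toWord) e
    simp only [hg0, hg1, toWord_gv] at h
    simpa using h)
  refine ⟨k * Q, ⟨⟨{g0, g1}, max L L', fun _ => (1 / 2) ^ (k + 1), k, 1, one_pos, ?_, ?_,
    fun _ => by positivity, ?_, fun v _ => le_rfl, ?_⟩, by simp⟩⟩
  · refine ⟨fun v hv => ?_, fun v hv w hw hvw => ?_⟩
    · simp only [Finset.mem_insert, Finset.mem_singleton] at hv
      rcases hv with rfl | rfl <;> simp [hg0, hg1, isPos_gv]
    · have h := ltr_ne (n := n) ⟨0, hd⟩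
      simp only [Finset.mem_insert, Finset.mem_singleton] at hv hw
      refine ⟨⟨0, hd⟩, ?_⟩
      rcases hv with rfl | rfl <;> rcases hw with rfl | rfl
      · exact absurd rfl hvw
      · simp [hg0, hg1, toWord_gv, h, h.symm]
      · simp [hg0, hg1, toWord_gv, h, h.symm]
      · exact absurd rfl hvw
  · intro v hv
    refine Ball_mono S (le_max_right _ _) (hL' ?_)
    simp only [Finset.mem_insert, Finset.mem_singleton] at hv ⊢
    rcases hv with rfl | rfl <;> simp
  · intro v hv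
    have hv' : (v : Γ) ∈ ({(g0 : Γ), (g1 : Γ)} : Finset Γ) ∧ c ≤ tau S p (v : Γ) := by
      simp only [Finset.mem_insert, Finset.mem_singleton] at hv ⊢
      rcases hv with rfl | rfl <;> simp [hl0, hl1]
    have h2 := (hv'.2.trans (hL _ hv'.1)).trans (mul_le_mul_of_nonneg_left
      (tauS_mono (lf_cay S) h0 h1 (Ball_mono S (le_max_left L L')) 1 (v : Γ)) zero_le_two)
    have h3 : (1 / 2 : ℝ) ^ (k + 1) ≤ (1 / 2) ^ k :=
      pow_le_pow_of_le_one (by norm_num) (by norm_num) (Nat.le_succ k)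
    linarith
  · rw [Finset.sum_pair hne, pow_succ]
    linarith

open Classical in
/-- A subfamily without related pairs keeping a share of the mass. -/
theorem exists_separated {α : Type*} (rel : α → α → Prop) (hsymm : ∀ x y, rel x y → rel y x)
    (w : α → ℝ) (hw : ∀ x, 0 ≤ w x) (N : ℕ) :
    ∀ U : Finset α, (∀ x ∈ U, (U.filter fun y => rel x y).card ≤ N) →
      ∃ W ⊆ U, (∀ x ∈ W, ∀ y ∈ W, x ≠ y → ¬ rel x y) ∧
        ∑ x ∈ U, w x ≤ ((N : ℝ) + 1) * ∑ x ∈ W, w x := by
  intro U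
  induction U using Finset.strongInduction with
  | H U ih =>
    intro hN
    rcases U.eq_empty_or_nonempty with rfl | hne
    · exact ⟨∅, subset_refl _, by simp, by simp⟩
    obtain ⟨x, hx, hmax⟩ := Finset.exists_max_image U w hne
    set U' := U.filter fun y => ¬ (rel x y ∨ y = x)
    have hss : U' ⊂ U := (Finset.ssubset_iff_of_subset (Finset.filter_subset _ _)).2
      ⟨x, hx, by simp [U']⟩
    obtain ⟨W, hW, hsep, hsum⟩ := ih U' hss fun y hy =>
      (Finset.card_le_card (Finset.filter_subset_filter _ (Finset.filter_subset _ _))).trans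
        (hN y (Finset.mem_filter.1 hy).1)
    have hxW : x ∉ W := fun h => by simpa using (Finset.mem_filter.1 (hW h)).2
    refine ⟨insert x W, Finset.insert_subset hx (hW.trans (Finset.filter_subset _ _)), ?_, ?_⟩
    · intro a ha b hb hab
      rcases Finset.mem_insert.1 ha with ea | ha' <;> rcases Finset.mem_insert.1 hb with eb | hb'
      · exact absurd (ea.trans eb.symm) hab
      · exact fun h => (Finset.mem_filter.1 (hW hb')).2 (Or.inl (ea ▸ h))
      · exact fun h => (Finset.mem_filter.1 (hW ha')).2 (Or.inl (hsymm _ _ (eb ▸ h)))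
      · exact hsep a ha' b hb' hab
    · rw [Finset.sum_insert hxW, mul_add,
        ← Finset.sum_filter_add_sum_filter_not U (fun y => rel x y ∨ y = x) w]
      refine add_le_add ?_ hsum
      refine (Finset.sum_le_card_nsmul _ _ _ fun y hy => hmax y (Finset.mem_filter.1 hy).1).trans ?_
      rw [nsmul_eq_mul]
      refine mul_le_mul_of_nonneg_right ?_ (hw x)
      have hc : (U.filter fun y => rel x y ∨ y = x).card ≤ N + 1 := by
        rw [Finset.filter_or]
        refine (Finset.card_union_le _ _).trans (Nat.add_le_add (hN x hx) ?_)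
        exact (Finset.card_le_card (t := {x}) fun y hy =>
          Finset.mem_singleton.2 (Finset.mem_filter.1 hy).2).trans (by simp)
      exact_mod_cast hc

end Vale.Agent.P165FreeProd.Ker
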