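import Vale.Agent.P165FreeProd.Code
import Vale.Agent.P165FreeProd.Ker.Ball

/-!
# Finite index subgroups mapping to products of free groups with kernels of polynomial growth
-/

namespace Vale.Agent.P165FreeProd.Ker

open FreeGroup

variable {d : ℕ} {n : Fin d → ℕ} {Γ : Type*} [Group Γ] [DecidableEq Γ] {H : Subgroup Γ}

/-- The total length of the coordinates. -/
def size (f : Prd n) : ℕ := ∑ i, ((f i).toWord).length

theorem size_mul_le (a b : Prd n) : size (a * b) ≤ size a + size b := by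
  rw [size, size, size, ← Finset.sum_add_distrib]
  exact Finset.sum_le_sum fun i _ => FreeGroup.norm_mul_le _ _

theorem size_inv (a : Prd n) : size a⁻¹ = size a :=
  Finset.sum_congr rfl fun _ _ => FreeGroup.norm_inv_eq

theorem size_ge (a b : Prd n) : size a ≤ size (a * b) + size b := by
  have h := size_mul_le (a * b) b⁻¹
  rwa [mul_inv_cancel_right, size_inv] at h

/-- Representatives for the right cosets of a subgroup. -/
structure Dec (H : Subgroup Γ) where
  /-- the representatives -/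
  R : Finset Γ
  /-- the component in the subgroup -/
  hc : Γ → H
  /-- the representative -/
  rc : Γ → Γ
  mem : ∀ x, rc x ∈ R
  eq : ∀ x, (hc x : Γ) * rc x = x
  equiv : ∀ (h : H) x, hc ((h : Γ) * x) = h * hc x

theorem exists_dec (hfi : H.FiniteIndex) : Nonempty (Dec H) := by
  classical
  haveI := hfi
  haveI : Fintype (Γ ⧸ H) := Subgroup.fintypeQuotientOfFiniteIndex
  set rc : Γ → Γ := fun x => (QuotientGroup.mk x⁻¹ : Γ ⧸ H).out⁻¹
  have h1 : ∀ x, ∃ h : H, (h : Γ) * rc x = x := by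
    intro x
    obtain ⟨h, e⟩ := QuotientGroup.mk_out_eq_mul H x⁻¹
    refine ⟨h, ?_⟩
    simp only [rc, e, mul_inv_rev, inv_inv]
    group
  choose hc hhc using h1
  refine ⟨⟨(Finset.univ : Finset (Γ ⧸ H)).image (fun q => q.out⁻¹), hc, rc,
    fun x => Finset.mem_image_of_mem _ (Finset.mem_univ _), hhc, fun h x => Subtype.ext ?_⟩⟩
  have e : rc ((h : Γ) * x) = rc x := by
    simp only [rc]
    congr 2
    rw [QuotientGroup.eq]
    simp [mul_assoc]
  have h2 := hhc ((h : Γ) * x)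
  rw [e] at h2
  refine mul_right_cancel (b := rc x) ?_
  rw [h2, Subgroup.coe_mul, mul_assoc, hhc]

variable (D : Dec H) (π : H →* Prd n) (S : Finset Γ)

/-- The image of the component in the subgroup. -/
def Dec.fc (x : Γ) : Prd n := π (D.hc x)

theorem Dec.fc_mul (h : H) (x : Γ) : D.fc π ((h : Γ) * x) = π h * D.fc π x := by
  rw [Dec.fc, D.equiv, _root_.map_mul]
  rfl

theorem Dec.hc_coe (h : H) : D.hc (h : Γ) = h * D.hc 1 := by
  rw [← D.equiv h 1, mul_one]

theorem exists_size_bound (A : Finset Γ) : ∃ M : ℕ, ∀ x ∈ A, size (D.fc π x) ≤ M :=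
  ⟨A.sup fun x => size (D.fc π x), fun _ hx => Finset.le_sup (f := fun x => size (D.fc π x)) hx⟩

/-- The image moves at bounded speed. -/
theorem exists_lipschitz :
    ∃ M : ℕ, ∀ L, ∀ x ∈ Ball S L, size (D.fc π x) ≤ M * (L + 1) := by
  set T := (D.R ×ˢ gens S).image fun q => q.1 * q.2
  obtain ⟨M, hM⟩ := exists_size_bound D π ({1} ∪ T)
  refine ⟨M, fun L => ?_⟩
  induction L with
  | zero =>
    intro x hx
    rw [Ball, Vale.Agent.P165.reach, Finset.mem_singleton] at hx
    subst hx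
    simpa using hM 1 (Finset.mem_union_left _ (Finset.mem_singleton_self 1))
  | succ L ih =>
    intro x hx
    rcases (mem_Ball_succ S).1 hx with h | ⟨y, hy, s, hs, rfl⟩
    · exact (ih x h).trans (Nat.mul_le_mul_left _ (Nat.le_succ _))
    · have e : y * s = (D.hc y : Γ) * (D.rc y * s) := by rw [← mul_assoc, D.eq]
      rw [e, D.fc_mul]
      refine (size_mul_le _ _).trans ?_
      have h1 : size (π (D.hc y)) ≤ M * (L + 1) := ih y hy
      have h2 : size (D.fc π (D.rc y * s)) ≤ M :=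
        hM _ (Finset.mem_union_right _ (Finset.mem_image.2
          ⟨(D.rc y, s), Finset.mem_product.2 ⟨D.mem y, hs⟩, rfl⟩))
      rw [Nat.mul_succ M (L + 1)]
      omega

/-- The kernel meets the balls in sets of polynomial size. -/
def KerGrowth (C e : ℕ) : Prop :=
  ∀ m : ℕ, ∀ F : Finset H, (∀ h ∈ F, π h = 1 ∧ (h : Γ) ∈ Ball S m) → F.card ≤ C * (m + 1) ^ e

variable {D π S}

theorem card_fibre {C e : ℕ} (hg : KerGrowth π S C e) {m : ℕ} (V : Finset H) (f : Prd n)
    (hV : ∀ k ∈ V, π k = f ∧ (k : Γ) ∈ Ball S m) : V.card ≤ C * (2 * m + 1) ^ e := by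
  rcases V.eq_empty_or_nonempty with rfl | ⟨k0, hk0⟩
  · simp
  classical
  rw [← Finset.card_image_of_injective V (mul_left_injective k0⁻¹)]
  refine hg (2 * m) _ fun h hh => ?_
  obtain ⟨k, hk, rfl⟩ := Finset.mem_image.1 hh
  refine ⟨by simp [_root_.map_mul, (hV k hk).1, (hV k0 hk0).1], ?_⟩
  rw [two_mul, Subgroup.coe_mul, Subgroup.coe_inv]
  exact mul_mem_Ball S (hV k hk).2 (inv_mem_Ball S (hV k0 hk0).2)

theorem card_fibre_rc {C e : ℕ} (hg : KerGrowth π S C e) {m : ℕ} (y : Γ) (V : Finset Γ) (f : Prd n)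
    (r : Γ) (hV : ∀ z ∈ V, D.fc π z = f ∧ D.rc z = r ∧ z * y ∈ Ball S m) :
    V.card ≤ C * (2 * m + 1) ^ e := by
  rcases V.eq_empty_or_nonempty with rfl | ⟨z0, hz0⟩
  · simp
  classical
  set φ : Γ → H := fun z => D.hc z * (D.hc z0)⁻¹
  have hco : ∀ z ∈ V, (φ z : Γ) = (z * y) * (z0 * y)⁻¹ := by
    intro z hz
    have e1 := D.eq z
    have e2 := D.eq z0
    rw [(hV z hz).2.1] at e1
    rw [(hV z0 hz0).2.1] at e2
    simp only [φ, Subgroup.coe_mul, Subgroup.coe_inv]
    rw [eq_mul_inv_of_mul_eq e1, eq_mul_inv_of_mul_eq e2]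
    group
  have hinj : Set.InjOn φ V := by
    intro z hz z' hz' h
    have h2 := congrArg (fun k : H => (k : Γ)) h
    simp only [hco z hz, hco z' hz', mul_inv_rev, mul_assoc] at h2
    exact mul_right_cancel h2
  rw [← Finset.card_image_of_injOn hinj]
  refine hg (2 * m) _ fun h hh => ?_
  obtain ⟨z, hz, rfl⟩ := Finset.mem_image.1 hh
  refine ⟨?_, ?_⟩
  · have h1 : D.fc π z = D.fc π z0 := (hV z hz).1.trans (hV z0 hz0).1.symm
    simp only [Dec.fc] at h1
    simp [φ, _root_.map_mul, h1]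
  · rw [hco z hz, two_mul]
    exact mul_mem_Ball S (hV z hz).2.2 (inv_mem_Ball S (hV z0 hz0).2.2)

variable (D π)

open Classical in
/-- A convolution inequality of Haagerup type, for functions carried by a ball. -/
theorem conv_le {C e : ℕ} (hg : KerGrowth π S C e) {M : ℕ}
    (hM : ∀ L, ∀ x ∈ Ball S L, size (D.fc π x) ≤ M * (L + 1)) {L : ℕ} {A : Finset Γ}
    (hA : A ⊆ Ball S L) (Z B : Finset Γ) (f g : Γ → ℝ) :
    ∑ z ∈ Z, (∑ x ∈ A.filter (fun x => x⁻¹ * z ∈ B), f x * g (x⁻¹ * z)) ^ 2 ≤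
      (((D.R.card : ℝ) * D.R.card * ((((M * (L + 1) : ℕ) : ℝ) + 1) ^ d *
          (((M * (L + 1) : ℕ) : ℝ) + 1) ^ d)) ^ 2 * ((C : ℝ) * (2 * (L : ℝ) + 1) ^ e)) *
        ((∑ x ∈ A, f x ^ 2) * ∑ y ∈ B, g y ^ 2) := by
  set m := M * (L + 1)
  have hlen : ∀ x ∈ A, ∀ i, ((D.fc π x i).toWord).length ≤ m := fun x hx i =>
    (Finset.single_le_sum (f := fun i => ((D.fc π x i).toWord).length)
      (fun _ _ => Nat.zero_le _) (Finset.mem_univ i)).trans (hM L x (hA hx))
  choose ca cb hca hcb hw using fun (i : Fin d) (h k : FreeGroup (Fin (n i + 2))) => exists_key h k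
  set K := (D.R ×ˢ D.R) ×ˢ
    ((Finset.univ : Finset (Fin d → Fin (m + 1))) ×ˢ (Finset.univ : Finset (Fin d → Fin (m + 1))))
  set key : Γ → Γ → (Γ × Γ) × ((Fin d → Fin (m + 1)) × (Fin d → Fin (m + 1))) := fun x z =>
    ((D.rc x, D.rc z), (fun i => ⟨min (ca i (D.fc π x i) (D.fc π z i)) m, by omega⟩,
      fun i => ⟨min (cb i (D.fc π x i) (D.fc π z i)) m, by omega⟩))
  have hkeyK : ∀ x z, key x z ∈ K := fun x z => by simp [K, key, D.mem]
  set F : _ → Γ → ℝ := fun κ z =>
    ∑ x ∈ A.filter (fun x => x⁻¹ * z ∈ B ∧ key x z = κ), f x * g (x⁻¹ * z)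
  have hsplit : ∀ z, ∑ x ∈ A.filter (fun x => x⁻¹ * z ∈ B), f x * g (x⁻¹ * z) = ∑ κ ∈ K, F κ z := by
    intro z
    rw [← Finset.sum_fiberwise_of_maps_to (g := fun x => key x z) (fun x _ => hkeyK x z)]
    refine Finset.sum_congr rfl fun κ _ => Finset.sum_congr ?_ fun _ _ => rfl
    rw [Finset.filter_filter]
  set μ : ℝ := (C : ℝ) * (2 * (L : ℝ) + 1) ^ e
  have hF : ∀ κ ∈ K, ∑ z ∈ Z, F κ z ^ 2 ≤ μ * ((∑ x ∈ A, f x ^ 2) * ∑ y ∈ B, g y ^ 2) := by
    intro κ _
    set cl : Γ → Finset Γ := fun z => A.filter fun x => x⁻¹ * z ∈ B ∧ key x z = κ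
    set img : ((_ : Γ) × (Γ × Γ)) → Γ × Γ := fun q => (q.2.1, q.2.2⁻¹ * q.1)
    set T := Z.sigma fun z => cl z ×ˢ cl z
    have hmaps : ∀ q ∈ T, img q ∈ A ×ˢ B := by
      intro q hq
      obtain ⟨z, x, x'⟩ := q
      simp only [T, Finset.mem_sigma, Finset.mem_product, cl, Finset.mem_filter] at hq
      exact Finset.mem_product.2 ⟨hq.2.1.1, hq.2.2.2.1⟩
    have hfib : ∀ b, ((T.filter fun q => img q = b).card : ℝ) ≤ μ := by
      intro b
      set Tb := T.filter fun q => img q = b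
      have hcast : ((C * (2 * L + 1) ^ e : ℕ) : ℝ) = μ := by simp [μ]
      rw [← hcast, Nat.cast_le]
      rcases Tb.eq_empty_or_nonempty with hT | ⟨q₀, hq₀⟩
      · simp [hT]
      have hinj : Set.InjOn (fun q : (_ : Γ) × (Γ × Γ) => q.1) Tb := by
        rintro ⟨z, x, x'⟩ hq ⟨z₁, x₁, x₁'⟩ hq₁ hz
        simp only [Finset.mem_coe, Tb, Finset.mem_filter] at hq hq₁
        have h1 := congrArg Prod.fst (hq.2.trans hq₁.2.symm)
        have h2 := congrArg Prod.snd (hq.2.trans hq₁.2.symm)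
        simp only [img] at h1 h2 hz
        subst hz
        subst h1
        have h3 : x' = x₁' := inv_injective (mul_right_cancel h2)
        subst h3
        rfl
      rw [← Finset.card_image_of_injOn hinj]
      refine card_fibre_rc (D := D) hg b.2⁻¹ _ (D.fc π q₀.1) (D.rc q₀.1) fun z hz => ?_
      obtain ⟨⟨z', x, x'⟩, hq, rfl⟩ := Finset.mem_image.1 hz
      obtain ⟨z₁, x₁, x₁'⟩ := q₀
      simp only [Tb, T, Finset.mem_filter, Finset.mem_sigma, Finset.mem_product, cl] at hq hq₀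
      obtain ⟨⟨-, ⟨hxA, -, kx⟩, ⟨hxA', -, kx'⟩⟩, hb⟩ := hq
      obtain ⟨⟨-, ⟨-, -, kx₁⟩, ⟨hxA₁', -, kx₁'⟩⟩, hb₁⟩ := hq₀
      have he := congrArg Prod.snd (hb.trans hb₁.symm)
      have hx₁ := congrArg Prod.fst (hb.trans hb₁.symm)
      simp only [img] at he hx₁
      subst hx₁
      show D.fc π z' = D.fc π z₁ ∧ D.rc z' = D.rc z₁ ∧ z' * b.2⁻¹ ∈ Ball S L
      have r1 : D.rc z' = D.rc z₁ := congrArg (fun q => q.1.2) (kx.trans kx₁.symm)
      have r2 : D.rc x' = D.rc x₁' := congrArg (fun q => q.1.1) (kx'.trans kx₁'.symm)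
      refine ⟨?_, r1, ?_⟩
      swap
      · rw [← congrArg Prod.snd hb]
        simpa [img] using hA hxA'
      have hY : (D.hc x')⁻¹ * D.hc z' = (D.hc x₁')⁻¹ * D.hc z₁ := by
        have e : ∀ (x z : Γ), (((D.hc x)⁻¹ * D.hc z : H) : Γ) =
            D.rc x * (x⁻¹ * z) * (D.rc z)⁻¹ := by
          intro x z
          rw [Subgroup.coe_mul, Subgroup.coe_inv, eq_mul_inv_of_mul_eq (D.eq x),
            eq_mul_inv_of_mul_eq (D.eq z), mul_inv_rev, inv_inv]
          simp only [mul_assoc]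
        exact Subtype.ext (by rw [e, e, r1, r2, he])
      funext i
      refine toWord_injective ?_
      have a1 := congrArg (fun q => (q.2.1 i).val) (kx.trans kx₁.symm)
      have a2 := congrArg (fun q => (q.2.1 i).val) (kx.trans kx'.symm)
      have a3 := congrArg (fun q => (q.2.1 i).val) (kx₁.trans kx₁'.symm)
      have b1 := congrArg (fun q => (q.2.2 i).val) (kx'.trans kx₁'.symm)
      simp only [key] at a1 a2 a3 b1
      have l1 := hlen x hxA i
      have l2 := hlen x' hxA' i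
      have l3 := hlen x₁' hxA₁' i
      have m1 := hca i (D.fc π x i) (D.fc π z' i)
      have m2 := hca i (D.fc π x i) (D.fc π z₁ i)
      have m5 := hcb i (D.fc π x' i) (D.fc π z' i)
      have m6 := hcb i (D.fc π x₁' i) (D.fc π z₁ i)
      have m3 := hca i (D.fc π x' i) (D.fc π z' i)
      have m4 := hca i (D.fc π x₁' i) (D.fc π z₁ i)
      have A1 : ca i (D.fc π x i) (D.fc π z' i) = ca i (D.fc π x i) (D.fc π z₁ i) := by omega
      have A2 : ca i (D.fc π x i) (D.fc π z' i) = ca i (D.fc π x' i) (D.fc π z' i) := by omega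
      have A3 : ca i (D.fc π x i) (D.fc π z₁ i) = ca i (D.fc π x₁' i) (D.fc π z₁ i) := by omega
      have B1 : cb i (D.fc π x' i) (D.fc π z' i) = cb i (D.fc π x₁' i) (D.fc π z₁ i) := by omega
      have hYi : (D.fc π x' i)⁻¹ * D.fc π z' i = (D.fc π x₁' i)⁻¹ * D.fc π z₁ i := by
        have := congrArg (fun k : H => π k i) hY
        simpa [Dec.fc, _root_.map_mul] using this
      -- the beginning, from `x`
      have u1 : (D.fc π z' i).toWord.take (ca i (D.fc π x i) (D.fc π z' i)) =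
          (D.fc π x i).toWord.take (ca i (D.fc π x i) (D.fc π z' i)) := by
        conv_lhs => rw [hw i (D.fc π x i) (D.fc π z' i), List.take_append_of_le_length
          (by rw [List.length_take]; omega), List.take_take, min_self]
      have u2 : (D.fc π z₁ i).toWord.take (ca i (D.fc π x i) (D.fc π z' i)) =
          (D.fc π x i).toWord.take (ca i (D.fc π x i) (D.fc π z' i)) := by
        rw [A1]
        conv_lhs => rw [hw i (D.fc π x i) (D.fc π z₁ i), List.take_append_of_le_length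
          (by rw [List.length_take]; omega), List.take_take, min_self]
      -- the end, from the quotient
      have w1 : (D.fc π z' i).toWord.drop (ca i (D.fc π x i) (D.fc π z' i)) =
          ((D.fc π x' i)⁻¹ * D.fc π z' i).toWord.drop (cb i (D.fc π x' i) (D.fc π z' i)) := by
        rw [A2]
        conv_lhs => rw [hw i (D.fc π x' i) (D.fc π z' i),
          List.drop_left' (by rw [List.length_take]; omega)]
      have w2 : (D.fc π z₁ i).toWord.drop (ca i (D.fc π x i) (D.fc π z' i)) =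
          ((D.fc π x₁' i)⁻¹ * D.fc π z₁ i).toWord.drop (cb i (D.fc π x₁' i) (D.fc π z₁ i)) := by
        rw [A1, A3]
        conv_lhs => rw [hw i (D.fc π x₁' i) (D.fc π z₁ i),
          List.drop_left' (by rw [List.length_take]; omega)]
      show (D.fc π z' i).toWord = (D.fc π z₁ i).toWord
      rw [← List.take_append_drop (ca i (D.fc π x i) (D.fc π z' i)) (D.fc π z' i).toWord,
        ← List.take_append_drop (ca i (D.fc π x i) (D.fc π z' i)) (D.fc π z₁ i).toWord,
        u1, u2, w1, w2, hYi, B1]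
    calc ∑ z ∈ Z, F κ z ^ 2
        ≤ ∑ z ∈ Z, (∑ x ∈ cl z, f x ^ 2) * ∑ x' ∈ cl z, g (x'⁻¹ * z) ^ 2 :=
          Finset.sum_le_sum fun z _ => Finset.sum_mul_sq_le_sq_mul_sq _ _ _
      _ = ∑ q ∈ T, f (img q).1 ^ 2 * g (img q).2 ^ 2 := by
          rw [Finset.sum_sigma]
          exact Finset.sum_congr rfl fun z _ => by rw [Finset.sum_mul_sum, Finset.sum_product]
      _ = ∑ b ∈ A ×ˢ B, ∑ q ∈ T.filter (fun q => img q = b), f (img q).1 ^ 2 * g (img q).2 ^ 2 :=
          (Finset.sum_fiberwise_of_maps_to hmaps _).symm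
      _ ≤ ∑ b ∈ A ×ˢ B, μ * (f b.1 ^ 2 * g b.2 ^ 2) := by
          refine Finset.sum_le_sum fun b _ => ?_
          rw [Finset.sum_congr rfl fun q hq => by rw [(Finset.mem_filter.1 hq).2],
            Finset.sum_const, nsmul_eq_mul]
          exact mul_le_mul_of_nonneg_right (hfib b) (by positivity)
      _ = _ := by rw [← Finset.mul_sum, Finset.sum_mul_sum, Finset.sum_product]
  calc ∑ z ∈ Z, (∑ x ∈ A.filter (fun x => x⁻¹ * z ∈ B), f x * g (x⁻¹ * z)) ^ 2
      ≤ ∑ z ∈ Z, (K.card : ℝ) * ∑ κ ∈ K, F κ z ^ 2 := Finset.sum_le_sum fun z _ => by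
        rw [hsplit]; exact sq_sum_le_card_mul_sum_sq
    _ = (K.card : ℝ) * ∑ κ ∈ K, ∑ z ∈ Z, F κ z ^ 2 := by rw [← Finset.mul_sum, Finset.sum_comm]
    _ ≤ (K.card : ℝ) * ∑ κ ∈ K, μ * ((∑ x ∈ A, f x ^ 2) * ∑ y ∈ B, g y ^ 2) :=
        mul_le_mul_of_nonneg_left (Finset.sum_le_sum hF) (Nat.cast_nonneg _)
    _ = _ := by
        rw [Finset.sum_const, nsmul_eq_mul, ← mul_assoc, ← pow_two]
        simp only [K, Finset.card_product, Finset.card_univ, Fintype.card_pi, Fintype.card_fin,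
          Finset.prod_const, μ]
        push_cast
        ring

end Vale.Agent.P165FreeProd.Ker
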