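import Mathlib

/-!
# The lattices of every dimension have polynomial growth
-/

namespace Vale.Agent.P165FreeProd.Ker

open scoped Pointwise

/-- The lattice `ℤ ^ e` has a generating set with growth of degree `e`. -/
theorem lattice_growth (e : ℕ) : ∃ T : Finset (Multiplicative (Fin e → ℤ)),
    Subgroup.closure (T : Set (Multiplicative (Fin e → ℤ))) = ⊤ ∧
      ∃ C : ℕ, ∀ m : ℕ, ((insert 1 (T ∪ T⁻¹)) ^ m).card ≤ C * (m + 1) ^ e := by
  classical
  refine ⟨Finset.univ.image fun i => Multiplicative.ofAdd (Pi.single i (1 : ℤ)), ?_, 2 ^ e, ?_⟩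
  · refine top_le_iff.1 fun x _ => ?_
    set K := Subgroup.closure ((Finset.univ.image fun i : Fin e =>
      Multiplicative.ofAdd (Pi.single i (1 : ℤ)) : Finset (Multiplicative (Fin e → ℤ))) :
        Set (Multiplicative (Fin e → ℤ)))
    have hx : x = ∏ i, (Multiplicative.ofAdd (Pi.single i (1 : ℤ))) ^ (Multiplicative.toAdd x i) := by
      refine Multiplicative.toAdd.injective ?_
      rw [toAdd_prod]
      refine funext fun j => ?_
      simp [Finset.sum_apply, Pi.single_apply]
    rw [hx]
    exact prod_mem fun i _ => zpow_mem (Subgroup.subset_closure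
      (Finset.mem_coe.2 (Finset.mem_image_of_mem _ (Finset.mem_univ i)))) _
  · intro m
    set B : Finset (Multiplicative (Fin e → ℤ)) := insert 1
      ((Finset.univ.image fun i => Multiplicative.ofAdd (Pi.single i (1 : ℤ))) ∪
        (Finset.univ.image fun i => Multiplicative.ofAdd (Pi.single i (1 : ℤ)))⁻¹)
    have hB : ∀ x ∈ B, ∀ j, (Multiplicative.toAdd x j).natAbs ≤ 1 := by
      intro x hx j
      simp only [B, Finset.mem_insert, Finset.mem_union, Finset.mem_inv', Finset.mem_image,
        Finset.mem_univ, true_and] at hx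
      rcases hx with rfl | ⟨i, rfl⟩ | ⟨i, hi⟩
      · simp
      · by_cases h : j = i <;> simp [h]
      · have h2 : (Pi.single i (1 : ℤ) : Fin e → ℤ) j = -(Multiplicative.toAdd x j) := by
          simpa using congrArg (fun y => (Multiplicative.toAdd y) j) hi
        by_cases h : j = i
        · subst h; rw [Pi.single_eq_same] at h2; omega
        · rw [Pi.single_eq_of_ne h] at h2; omega
    have hpow : ∀ k, ∀ x ∈ B ^ k, ∀ j, (Multiplicative.toAdd x j).natAbs ≤ k := by
      intro k
      induction k with
      | zero =>
        intro x hx j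
        simp only [pow_zero, Finset.mem_one] at hx
        simp [hx]
      | succ k ih =>
        intro x hx j
        rw [pow_succ, Finset.mem_mul] at hx
        obtain ⟨y, hy, z, hz, rfl⟩ := hx
        rw [toAdd_mul, Pi.add_apply]
        exact (Int.natAbs_add_le _ _).trans (add_le_add (ih y hy j) (hB z hz j))
    have hsub : B ^ m ⊆ (Fintype.piFinset fun _ : Fin e => Finset.Icc (-(m : ℤ)) m).image
        Multiplicative.ofAdd := fun x hx => Finset.mem_image.2 ⟨Multiplicative.toAdd x,
      Fintype.mem_piFinset.2 fun j => Finset.mem_Icc.2 (by have := hpow m x hx j; omega), rfl⟩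
    refine (Finset.card_le_card hsub).trans (Finset.card_image_le.trans ?_)
    rw [Fintype.card_piFinset, Finset.prod_const, Finset.card_univ, Fintype.card_fin, Int.card_Icc,
      ← mul_pow]
    exact Nat.pow_le_pow_left (by omega) e

end Vale.Agent.P165FreeProd.Ker
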