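import Vale.Agent.P165FreeProd.Main
import Vale.Agent.P165FreeProd.Ker.Exit

/-!
# A nonuniqueness phase on Cayley graphs of groups virtually mapping into products of free groups
with kernels of polynomial growth
-/

namespace Vale.Agent.P165FreeProd.Ker

open MeasureTheory ProbabilityTheory Filter Topology Vale.Agent.P165

universe u

variable {d : ℕ} {n : Fin d → ℕ} {Γ : Type u} [Group Γ] [DecidableEq Γ] [Countable Γ] {H : Subgroup Γ}
  {π : H →* Prd n} {S : Finset Γ}

omit [Countable Γ] in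
theorem isCode_two (hd : 0 < d) (h : (Fin d → Bool) → H) (hh : ∀ v, π (h v) = gv v) :
    IsCode ({h (fun _ => false), h (fun _ => true)} : Finset H) (fun x => π x) := by
  refine ⟨fun a ha => ?_, fun a ha b hb hne => ?_⟩
  · simp only [Finset.mem_insert, Finset.mem_singleton] at ha
    rcases ha with rfl | rfl <;> rw [hh] <;> exact isPos_gv _
  · refine gv_code hd _ ?_ _ ?_ ?_
    · simp only [Finset.mem_insert, Finset.mem_singleton] at ha
      rcases ha with rfl | rfl <;> simp [hh]
    · simp only [Finset.mem_insert, Finset.mem_singleton] at hb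
      rcases hb with rfl | rfl <;> simp [hh]
    · simp only [Finset.mem_insert, Finset.mem_singleton] at ha hb
      have hne' : (gv (n := n) fun _ => false) ≠ gv fun _ => true := fun e => ltr_ne (n := n) ⟨0, hd⟩ (by
        have h' := congrArg (fun z : Prd n => (z ⟨0, hd⟩).toWord) e
        simpa [toWord_gv] using h')
      rcases ha with rfl | rfl <;> rcases hb with rfl | rfl
      exacts [absurd rfl hne, by rw [hh, hh]; exact hne', by rw [hh, hh]; exact hne'.symm,
        absurd rfl hne]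

/-- The main theorem, from the mass bound. -/
theorem pc_lt_pu_of_mass (hd : 0 < d) (hS : Subgroup.closure (S : Set Γ) = ⊤) (D : Dec H)
    (hgv : ∀ v, ∃ h : H, π h = gv v) {C e : ℕ} (hg : KerGrowth π S C e)
    (hmass : ∀ {p c : ℝ}, 0 ≤ p → p ≤ 1 → CodeBd π S p → 0 < c →
      (∀ v, ∃ h : H, π h = gv v ∧ c ≤ tau S p (h : Γ)) → (∀ r ∈ D.R, c ≤ tau S p r⁻¹) → MassLe S p) :
    pc (SimpleGraph.mulCayley (S : Set Γ)) < pu (SimpleGraph.mulCayley (S : Set Γ)) := by
  classical
  choose lift hlift using hgv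
  haveI : Infinite Γ := by
    haveI : Infinite H := by
      refine Infinite.of_injective (fun k : ℕ => (lift fun _ => false) ^ k) ?_
      intro a b h
      have h' := congrArg (fun z : H => ((π z : Prd n) ⟨0, hd⟩).toWord.length) h
      simpa [hlift, gv, FreeGroup.toWord_of_pow] using h'
    exact Infinite.of_injective (fun h : H => (h : Γ)) Subtype.val_injective
  set G := SimpleGraph.mulCayley (S : Set Γ)
  have hconn : G.Connected := connected_cay S hS
  have hone : ∀ x : Γ, {z | (openGraph G G.edgeSet).Reachable x z} = Set.univ := fun x => by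
    ext z
    have e : openGraph G G.edgeSet = G := by simp [openGraph]
    simp [e, hconn.preconnected x z]
  have hinf1 : perc G 1 {ω | HasInfinite G ω} = 1 := by
    rw [perc, setBernoulli_one]
    exact Measure.dirac_apply_of_mem ⟨1, by rw [hone]; exact Set.infinite_univ⟩
  have huni1 : perc G 1 {ω | UniqueInfinite G ω} = 1 := by
    rw [perc, setBernoulli_one]
    refine Measure.dirac_apply_of_mem ⟨⟨1, by rw [hone]; exact Set.infinite_univ⟩, fun x y _ _ => ?_⟩
    have : y ∈ {z | (openGraph G G.edgeSet).Reachable x z} := by rw [hone]; trivial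
    exact this
  have hmemS : (1 : ℝ) ∈ {t : ℝ | ∃ h : t ∈ Set.Icc (0 : ℝ) 1,
      0 < perc G ⟨t, h⟩ {ω | HasInfinite G ω}} :=
    ⟨⟨zero_le_one, le_rfl⟩, by
      show 0 < perc G 1 {ω | HasInfinite G ω}
      rw [hinf1]
      exact one_pos⟩
  set q := pc G with hqdef
  have hq1 : q ≤ 1 := csInf_le ⟨0, by rintro t ⟨ht, -⟩; exact ht.1⟩ hmemS
  have hbelow : ∀ t : ℝ, ∀ h : t ∈ Set.Icc (0 : ℝ) 1, t < q →
      perc G ⟨t, h⟩ {ω | HasInfinite G ω} = 0 := by
    intro t h htq
    by_contra hne
    have hmem : t ∈ {t : ℝ | ∃ h : t ∈ Set.Icc (0 : ℝ) 1,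
        0 < perc G ⟨t, h⟩ {ω | HasInfinite G ω}} := ⟨h, pos_iff_ne_zero.2 hne⟩
    exact absurd (csInf_le ⟨0, by rintro s ⟨hs, -⟩; exact hs.1⟩ hmem) (not_le.2 htq)
  -- positivity
  set p0 : ℝ := 1 / (2 * ((gens S).card + 1))
  have hp0 : 0 < p0 := by positivity
  have hp01 : p0 ≤ 1 := by
    rw [div_le_one (by positivity)]
    linarith [(Nat.cast_nonneg (gens S).card : (0 : ℝ) ≤ _)]
  have hsub0 : Subcrit S p0 := by
    refine subcrit_of_phi S hp0.le hp01 (Finset.mem_singleton_self 1)
      ((phi_one_le S p0 hp0.le).trans_lt ?_)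
    rw [div_mul_eq_mul_div, one_mul, div_lt_one (by positivity)]
    linarith [(Nat.cast_nonneg (gens S).card : (0 : ℝ) ≤ _)]
  have hq0 : p0 ≤ q := by
    refine le_csInf ⟨1, hmemS⟩ ?_
    rintro t ⟨ht, hpos⟩
    by_contra hlt
    exact hpos.ne' (hasInfinite_null S ⟨t, ht⟩
      (subcrit_mono S ht.1 (not_le.1 hlt).le hp01 hsub0))
  -- below the threshold the susceptibility is finite
  have hsub : ∀ t, 0 ≤ t → t < q → Subcrit S t := by
    intro t ht htq
    set p2 := (max t (p0 / 2) + q) / 2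
    have hm : max t (p0 / 2) < q := max_lt htq (by linarith)
    have h1m : max t (p0 / 2) < p2 := by simp only [p2]; linarith
    have h2q : p2 < q := by simp only [p2]; linarith
    have h20 : 0 ≤ p2 := by linarith [le_max_right t (p0 / 2)]
    by_contra hcon
    have hphi : ∀ r ∈ Set.Icc (max t (p0 / 2)) p2, ∀ B : Finset Γ, (1 : Γ) ∈ B →
        1 ≤ phi (cnb S) B r 1 := by
      intro r hr B hB
      by_contra hlt
      have hr0 : 0 ≤ r := le_trans (ht.trans (le_max_left _ _)) hr.1
      exact hcon (subcrit_mono S ht ((le_max_left _ _).trans hr.1) (by linarith [hr.2])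
        (subcrit_of_phi S hr0 (by linarith [hr.2]) hB (not_le.1 hlt)))
    have hθ := theta_ge (G := G) (lf_cay S) (p1 := max t (p0 / 2))
      (p2 := ⟨p2, h20, by linarith⟩) (by positivity) h1m.le (by show p2 < 1; linarith) (o := 1)
      zero_le_one le_rfl hphi
    have hz := hbelow p2 ⟨h20, by linarith⟩ h2q
    have hle := hθ.trans (measure_mono (t := {ω | HasInfinite G ω}) fun ω hω => ⟨1, hω⟩)
    rw [hz, nonpos_iff_eq_zero, ENNReal.ofReal_eq_zero] at hle
    have hexp : Real.exp (1 * max t (p0 / 2) - 1 * p2) < 1 := Real.exp_lt_one_iff.2 (by linarith)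
    exact absurd hle (by
      show ¬ (1 - Real.exp (1 * max t (p0 / 2) - 1 * p2) ≤ 0)
      linarith)
  -- at the threshold
  set p1 := p0 / 2
  have hp1 : 0 < p1 := by positivity
  have hp1q : p1 < q := by simp only [p1]; linarith
  have h0q : 0 ≤ q := by linarith
  have hcb : CodeBd π S q := codeBd_of_subcrit hp1.le hp1q hq1
    fun t ht htq => hsub t (hp1.le.trans ht) htq
  set A0 : Finset Γ := (Finset.univ.image fun v => (lift v : Γ)) ∪ D.R.image (·⁻¹)
  obtain ⟨k0, hk0⟩ := exists_uniform_pow S hS A0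
  set c := q ^ k0
  have hc0 : 0 < c := pow_pos (by linarith) _
  have hc1 : ∀ v, c ≤ tau S q (lift v : Γ) := fun v => hk0 q h0q hq1 _
    (Finset.mem_union_left _ (Finset.mem_image_of_mem _ (Finset.mem_univ v)))
  have hc : ∀ v, ∃ h : H, π h = gv v ∧ c ≤ tau S q (h : Γ) := fun v => ⟨lift v, hlift v, hc1 v⟩
  have hcr : ∀ r ∈ D.R, c ≤ tau S q r⁻¹ := fun r hr => hk0 q h0q hq1 _
    (Finset.mem_union_right _ (Finset.mem_image_of_mem _ hr))
  have hqlt : q < 1 := by
    refine lt_of_le_of_ne hq1 fun hq => ?_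
    have hne : lift (fun _ => false) ≠ lift fun _ => true := fun he => ltr_ne (n := n) ⟨0, hd⟩ (by
      have h' := congrArg (fun x : H => ((π x : Prd n) ⟨0, hd⟩).toWord) he
      simpa [hlift, toWord_gv] using h')
    have h := hcb _ (isCode_two hd lift hlift)
    rw [Finset.sum_pair hne] at h
    have h2 := hc1 fun _ => false
    have h3 := hc1 fun _ => true
    simp only [c, hq, one_pow] at h2 h3
    rw [hq] at h
    linarith
  -- openness
  obtain ⟨Y, hY, P, hcrude⟩ := exists_crude hS D hd hg h0q hq1 hcb hc0 hc hcr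
  obtain ⟨M, hM⟩ := exists_lipschitz D π S
  obtain ⟨i, Hs, hH, hk⟩ := exists_kap_lt (D := D) (d := d) C e M h0q hq1
    (hmass h0q hq1 hcb hc0 hc hcr) hY hcrude
  obtain ⟨δ, hδ, hball⟩ := Metric.eventually_nhds_iff.1
    ((continuous_kap D S C e M i Hs).continuousAt.eventually (gt_mem_nhds hk))
  refine lt_of_lt_of_le (lt_min (show q < q + δ by linarith) hqlt) (le_csInf ⟨1, ⟨zero_le_one, le_rfl⟩,
    huni1⟩ ?_)
  rintro t ⟨ht, hu⟩
  by_contra hlt
  obtain ⟨htδ, -⟩ := lt_min_iff.1 (not_le.1 hlt)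
  rcases lt_or_ge t q with htq | htq
  · have h0 := hbelow t ht htq
    have := (measure_mono (μ := perc G ⟨t, ht⟩) (s := {ω | UniqueInfinite G ω})
      (t := {ω | HasInfinite G ω}) fun ω hω => hω.1).trans h0.le
    rw [hu] at this
    simp at this
  · have hk' : D.kap (d := d) S C e M i Hs t < 1 := hball (by
      rw [Real.dist_eq, abs_of_nonneg (sub_nonneg.2 htq)]
      linarith)
    exact not_unique_of_sq S ⟨t, ht⟩ (fun F => sq_le_of_kap hg hM ht.1 ht.2 hH hk' F) hu

end Vale.Agent.P165FreeProd.Ker
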