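import Vale.Agent.P165FreeProd.Ker.Fam

/-!
# Heavy point sets as separated atoms over a prefix code
-/

namespace Vale.Agent.P165FreeProd.Ker

open Vale.Agent.P165

variable {d : ℕ} {n : Fin d → ℕ} {Γ : Type*} [Group Γ] [DecidableEq Γ] {H : Subgroup Γ}
  {π : H →* Prd n} {S : Finset Γ} {p : ℝ}

theorem prod_pow_le_tau (h0 : 0 ≤ p) (h1 : p ≤ 1) {c : ℝ} (hc : 0 ≤ c) :
    ∀ l : List H, (∀ v ∈ l, c ≤ tau S p (v : Γ)) → c ^ l.length ≤ tau S p ((l.prod : H) : Γ)
  | [], _ => by simp [tau_one S h0 h1]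
  | v :: l, h => by
    rw [List.prod_cons, Subgroup.coe_mul, List.length_cons, pow_succ']
    exact (mul_le_mul (h v (by simp))
      (prod_pow_le_tau h0 h1 hc l fun w hw => h w (List.mem_cons_of_mem _ hw)) (pow_nonneg hc _)
      (tau_nonneg S h0 h1 _)).trans (tau_mul S h0 h1 _ _)

open Classical in
/-- Padding turns most of the weight of a finite set into atoms over a prefix code, separated
inside each fibre. -/
theorem exists_prep (h0 : 0 ≤ p) (h1 : p ≤ 1) (hd : 0 < d) {C e : ℕ} (hg : KerGrowth π S C e)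
    {c : ℝ} (hc0 : 0 < c) (sv : (Fin d → Bool) → H) (hsv : ∀ v, π (sv v) = gv v)
    (hsvc : ∀ v, c ≤ tau S p (sv v : Γ)) {rs : ℕ} (hrs : ∀ v, (sv v : Γ) ∈ Ball S rs)
    (U : Finset H) {L : ℕ} (hU : ∀ k ∈ U, (k : Γ) ∈ Ball S L) (R2 kk : ℕ)
    (hk : 2 * d * Nat.log 2 U.card ≤ 2 ^ kk) {thr : ℝ} (hthr : 0 ≤ thr) :
    ∃ (X : Finset (Prd n)) (g : Prd n → Prd n) (P : Prd n → Finset H),
      IsCode X g ∧
      (∀ f ∈ X, ∀ k ∈ P f, π k = g f ∧ (k : Γ) ∈ Ball S (L + rs * (kk + 3))) ∧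
      (∀ f ∈ X, ∀ k ∈ P f, ∀ k' ∈ P f, k ≠ k' → ((k⁻¹ * k' : H) : Γ) ∉ Ball S R2) ∧
      (∀ f ∈ X, thr ≤ ∑ k ∈ P f, tau S p (k : Γ)) ∧
      c ^ (kk + 3) * ∑ k ∈ U, tau S p (k : Γ) ≤ 2 * ((kk : ℝ) + 1) ^ d *
        ((((C * (R2 + 1) ^ e : ℕ) : ℝ) + 1) *
          ((U.card : ℝ) * thr + ∑ f ∈ X, ∑ k ∈ P f, tau S p (k : Γ))) := by
  set Uf := U.image fun k => π k
  set ω : Prd n → ℝ := fun f => ∑ k ∈ U.filter (fun k => π k = f), tau S p (k : Γ)
  obtain ⟨X0, hX0, ext, hlen, hsum, hword, hinc⟩ := exists_code Uf ω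
    (fun f => Finset.sum_nonneg fun k _ => tau_nonneg S h0 h1 _) kk
    (le_trans (Nat.mul_le_mul_left _ (Nat.log_mono_right Finset.card_image_le)) hk)
  set ef : Prd n → Prd n := fun f => f * ((ext f).map gv).prod
  set g : Prd n → Prd n := fun f => gv (front (ef f)) * ef f
  have hend : ∀ f i, EndPos ((ef f) i).toWord := by
    intro f i
    rw [hword]
    have hne : ext f ≠ [] := List.ne_nil_of_length_pos (by rw [hlen]; omega)
    refine ⟨(ltr i ((ext f).getLast hne i)).1,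
      (f i).toWord ++ ((ext f).dropLast.map fun v => ltr i (v i)), ?_⟩
    conv_lhs => rw [← List.dropLast_append_getLast hne]
    rw [List.map_append, List.map_singleton, List.append_assoc]
    rfl
  have hcode : IsCode X0 g := ⟨fun f _ => isPos_front (hend f),
    fun f hf f' hf' hne => incomp_front (hinc f hf f' hf' hne)⟩
  set pads : Prd n → H → H := fun f k => sv (front (ef f)) * (k * ((ext f).map sv).prod)
  set P0 : Prd n → Finset H := fun f => (U.filter fun k => π k = f).image (pads f)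
  have hπext : ∀ f, π ((ext f).map sv).prod = ((ext f).map gv).prod := fun f => by
    rw [map_list_prod, List.map_map]
    exact congrArg List.prod (List.map_congr_left fun v _ => hsv v)
  have hP0 : ∀ f, ∀ k ∈ P0 f, π k = g f ∧ (k : Γ) ∈ Ball S (L + rs * (kk + 3)) := by
    intro f k hk'
    obtain ⟨m, hm, rfl⟩ := Finset.mem_image.1 hk'
    obtain ⟨hmU, hmf⟩ := Finset.mem_filter.1 hm
    refine ⟨by simp only [pads, g, ef, _root_.map_mul, hsv, hπext, hmf], ?_⟩
    simp only [pads, Subgroup.coe_mul]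
    rw [show L + rs * (kk + 3) = rs + (L + rs * (kk + 2)) by ring]
    refine mul_mem_Ball S (hrs _) (mul_mem_Ball S (hU m hmU) ?_)
    have h := prod_mem_Ball S (R0 := rs) ((ext f).map sv) fun v hv => by
      obtain ⟨w, -, rfl⟩ := List.mem_map.1 hv
      exact hrs w
    simpa [hlen] using h
  have hmass : ∀ f, c ^ (kk + 3) * ω f ≤ ∑ k ∈ P0 f, tau S p (k : Γ) := by
    intro f
    simp only [P0, ω]
    rw [Finset.sum_image (fun a _ b _ h => mul_right_cancel (mul_left_cancel h)), Finset.mul_sum]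
    refine Finset.sum_le_sum fun k _ => ?_
    have hl := prod_pow_le_tau (S := S) h0 h1 hc0.le ((ext f).map sv) fun v hv => by
      obtain ⟨w, -, rfl⟩ := List.mem_map.1 hv
      exact hsvc w
    rw [List.length_map, hlen] at hl
    have hk0 := tau_nonneg S h0 h1 (k : Γ)
    calc c ^ (kk + 3) * tau S p (k : Γ) = c * (tau S p (k : Γ) * c ^ (kk + 2)) := by
          rw [show kk + 3 = (kk + 2) + 1 from rfl, pow_succ']; ring
      _ ≤ tau S p (sv (front (ef f)) : Γ) *
          (tau S p (k : Γ) * tau S p (((ext f).map sv).prod : H)) :=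
        mul_le_mul (hsvc _) (mul_le_mul_of_nonneg_left hl hk0) (by positivity)
          (tau_nonneg S h0 h1 _)
      _ ≤ tau S p (sv (front (ef f)) : Γ) * tau S p ((k : Γ) * (((ext f).map sv).prod : H)) :=
        mul_le_mul_of_nonneg_left (tau_mul S h0 h1 _ _) (tau_nonneg S h0 h1 _)
      _ ≤ _ := by
        simp only [pads, Subgroup.coe_mul]
        exact tau_mul S h0 h1 _ _
  set rel : H → H → Prop := fun k k' => k ≠ k' ∧ π k = π k' ∧ ((k⁻¹ * k' : H) : Γ) ∈ Ball S R2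
  have hsep := fun f => exists_separated rel (fun k k' h => ⟨h.1.symm, h.2.1.symm, by
      have h' := inv_mem_Ball S h.2.2
      rwa [← Subgroup.coe_inv, mul_inv_rev, inv_inv] at h'⟩)
    (fun k : H => tau S p (k : Γ)) (fun k => tau_nonneg S h0 h1 _) (C * (R2 + 1) ^ e) (P0 f)
    fun k _ => by
      rw [← Finset.card_image_of_injective _ (mul_right_injective k⁻¹)]
      refine hg R2 _ fun m hm => ?_
      obtain ⟨k', hk', rfl⟩ := Finset.mem_image.1 hm
      simp only [Finset.mem_filter, rel] at hk'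
      obtain ⟨-, -, hπ, hb⟩ := hk'
      exact ⟨by simp [_root_.map_mul, hπ], hb⟩
  choose P1 hP1 hP1sep hP1sum using hsep
  set X := X0.filter fun f => thr ≤ ∑ k ∈ P1 f, tau S p (k : Γ)
  refine ⟨X, g, P1, ⟨fun f hf => hcode.pos f (Finset.mem_filter.1 hf).1, fun f hf f' hf' =>
      hcode.incomp f (Finset.mem_filter.1 hf).1 f' (Finset.mem_filter.1 hf').1⟩,
    fun f _ k hk' => hP0 f k (hP1 f hk'), fun f _ k hk' k' hk'' hne hb => hP1sep f k hk' k' hk'' hne
      ⟨hne, (hP0 f k (hP1 f hk')).1.trans (hP0 f k' (hP1 f hk'')).1.symm, hb⟩,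
    fun f hf => (Finset.mem_filter.1 hf).2, ?_⟩
  have hUω : ∑ k ∈ U, tau S p (k : Γ) = ∑ f ∈ Uf, ω f :=
    (Finset.sum_fiberwise_of_maps_to (fun k hk => Finset.mem_image_of_mem _ hk) _).symm
  rw [hUω]
  refine (mul_le_mul_of_nonneg_left hsum (by positivity)).trans ?_
  rw [mul_left_comm]
  refine mul_le_mul_of_nonneg_left ?_ (by positivity)
  rw [Finset.mul_sum]
  refine ((Finset.sum_le_sum fun f _ => (hmass f).trans (hP1sum f)).trans ?_)
  rw [← Finset.mul_sum]
  refine mul_le_mul_of_nonneg_left ?_ (by positivity)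
  rw [← Finset.sum_filter_add_sum_filter_not X0 (fun f => thr ≤ ∑ k ∈ P1 f, tau S p (k : Γ)),
    add_comm ((U.card : ℝ) * thr)]
  refine add_le_add_right ?_ _
  refine (Finset.sum_le_card_nsmul _ _ thr fun f hf => (not_le.1 (Finset.mem_filter.1 hf).2).le).trans ?_
  rw [nsmul_eq_mul]
  exact mul_le_mul_of_nonneg_right (Nat.cast_le.2 ((Finset.card_filter_le _ _).trans
    ((Finset.card_le_card hX0).trans Finset.card_image_le))) hthr

end Vale.Agent.P165FreeProd.Ker
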