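import Vale.Agent.P165FreeProd.Ker.Words
import Vale.Agent.P165FreeProd.Group

/-!
# Two-point functions and codes in a finite index subgroup
-/

namespace Vale.Agent.P165FreeProd.Ker

open Vale.Agent.P165 Filter Topology

variable {d : ℕ} {n : Fin d → ℕ} {Γ : Type*} [Group Γ] [DecidableEq Γ] {H : Subgroup Γ}
  (π : H →* Prd n) (S : Finset Γ) {p : ℝ}

theorem tauS_mul (h0 : 0 ≤ p) (h1 : p ≤ 1) (Λ Λ' : Finset Γ) (x y : Γ) :
    tauS (cnb S) Λ p 1 x * tauS (cnb S) Λ' p 1 y ≤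
      tauS (cnb S) (Λ ∪ Λ'.image (x * ·)) p 1 (x * y) := by
  rw [← tauS_shift S x Λ' p 1 y, mul_one]
  refine le_trans (mul_le_mul
    (tauS_mono (Λ' := Λ ∪ Λ'.image (x * ·)) (lf_cay S) h0 h1 Finset.subset_union_left 1 x)
    (tauS_mono (Λ' := Λ ∪ Λ'.image (x * ·)) (lf_cay S) h0 h1 Finset.subset_union_right x (x * y))
    (tauS_nonneg h0 h1 _ _ _) (tauS_nonneg h0 h1 _ _ _)) ?_
  exact (harris h0 h1 _ (conn_mono 1 x) (conn_mono x (x * y))).trans
    (Pr_mono h0 h1 fun s _ hs => hs.1.trans hs.2)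

theorem tauS_one_one (Λ : Finset Γ) : tauS (cnb S) Λ p 1 1 = 1 := by
  rw [tauS, Pr_congr (A := Conn (1 : Γ) 1) (B := fun _ => True) fun s _ =>
    ⟨fun _ => trivial, fun _ => SimpleGraph.Reachable.refl _⟩, Pr_true]

theorem tau_le_one' (h0 : 0 ≤ p) (h1 : p ≤ 1) (x : Γ) : tau S p x ≤ 1 :=
  ciSup_le fun _ => tauS_le_one h0 h1 _ _ _

/-- Some ball sees half of each of finitely many connection probabilities. -/
theorem exists_witness (hS : Subgroup.closure (S : Set Γ) = ⊤) (h0 : 0 ≤ p) (h1 : p ≤ 1)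
    (A : Finset Γ) : ∃ L, ∀ x ∈ A, tau S p x ≤ 2 * tauS (cnb S) (Ball S L) p 1 x := by
  classical
  have hx : ∀ x : Γ, ∃ Λ : Finset Γ, tau S p x ≤ 2 * tauS (cnb S) Λ p 1 x := by
    intro x
    rcases (tau_nonneg S h0 h1 x).lt_or_eq with hpos | hz
    · obtain ⟨Λ, hΛ⟩ := exists_lt_of_lt_ciSup (f := fun Λ : Finset Γ => tauS (cnb S) Λ p 1 x)
        (show tau S p x / 2 < tau S p x by linarith)
      exact ⟨Λ, by linarith⟩
    · exact ⟨∅, by rw [← hz]; exact mul_nonneg zero_le_two (tauS_nonneg h0 h1 _ _ _)⟩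
  choose Λ hΛ using hx
  obtain ⟨L, hL⟩ := exists_radius hS (A.biUnion Λ)
  exact ⟨L, fun x hxA => (hΛ x).trans (mul_le_mul_of_nonneg_left (tauS_mono (lf_cay S) h0 h1
    ((Finset.subset_biUnion_of_mem Λ hxA).trans hL) 1 x) zero_le_two)⟩

/-- The mass of polynomially many points of the ball of radius `4 G` is at most `G ^ (3 / 4)`,
for `G = 2 ^ (4 h)`. -/
def MassLe (p : ℝ) : Prop :=
  ∀ A : ℕ, ∀ᶠ h in (atTop : Filter ℕ), ∀ V : Finset Γ, V ⊆ Ball S (2 ^ (4 * h + 2)) →
    V.card ≤ 2 ^ (A * h) → ∑ x ∈ V, tau S p x ≤ 2 ^ (3 * h)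

/-- A prefix code carries mass at most one. -/
def CodeBd (p : ℝ) : Prop :=
  ∀ E : Finset H, IsCode E (fun h => π h) → ∑ x ∈ E, tau S p (x : Γ) ≤ 1

variable {π S}

theorem code_card {K : ℕ} (h0 : 0 ≤ p) (h1 : p ≤ 1) (hcb : CodeBd π S p) (E : Finset H)
    (hE : IsCode E fun h => π h) (hbig : ∀ x ∈ E, (1 / 2 : ℝ) ^ K ≤ tau S p (x : Γ)) :
    E.card ≤ 2 ^ K := by
  have h := (Finset.card_nsmul_le_sum E _ _ hbig).trans (hcb E hE)
  rw [nsmul_eq_mul, one_div, inv_pow, mul_inv_le_iff₀ (by positivity), one_mul] at h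
  exact_mod_cast h

/-- The limit of codes below a value of the parameter. -/
theorem codeBd_of_subcrit {q p0 : ℝ} (hp0 : 0 ≤ p0) (hq : p0 < q) (hq1 : q ≤ 1)
    (hsub : ∀ t, p0 ≤ t → t < q → Subcrit S t) : CodeBd π S q := by
  classical
  intro E hE
  set φ : H → Γ := fun h => (h : Γ)
  have hφ : Function.Injective φ := Subtype.val_injective
  have hinjE : Set.InjOn (fun h : H => π h) E := fun a ha b hb he =>
    by_contra fun hne => incomp_ne (hE.incomp a ha b hb hne) he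
  have ht : ∀ t, p0 ≤ t → t < q → ∑ x ∈ E, tau S t (x : Γ) ≤ 1 := by
    intro t ht htq
    have hcode := code_le_one S (hp0.trans ht) (htq.le.trans hq1) (hsub t ht htq) (E.image φ) (by
      intro l l' hl hl' hlen he
      have pre : ∀ m : List Γ, (∀ x ∈ m, x ∈ E.image φ) →
          ∃ m' : List H, (∀ x ∈ m', x ∈ E) ∧ m'.map φ = m := by
        intro m
        induction m with
        | nil => exact fun _ => ⟨[], by simp, rfl⟩
        | cons a m ih =>
          intro hm
          obtain ⟨a', ha', rfl⟩ := Finset.mem_image.1 (hm a (by simp))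
          obtain ⟨m', h1, rfl⟩ := ih fun x hx => hm x (List.mem_cons_of_mem _ hx)
          exact ⟨a' :: m', by simpa [ha'] using h1, rfl⟩
      obtain ⟨a, ha, rfl⟩ := pre l hl
      obtain ⟨b, hb, rfl⟩ := pre l' hl'
      have he' : a.prod = b.prod := by
        refine Subtype.ext ?_
        simpa [φ, Subgroup.val_list_prod] using he
      have hπ := congrArg π he'
      rw [map_list_prod, map_list_prod] at hπ
      have hmap : a.map π = b.map π := prod_injective (E.image fun h => π h) (fun x hx => by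
          obtain ⟨h, hh, rfl⟩ := Finset.mem_image.1 hx
          exact hE.pos h hh)
        (fun x hx y hy hne => by
          obtain ⟨h, hh, rfl⟩ := Finset.mem_image.1 hx
          obtain ⟨k, hk, rfl⟩ := Finset.mem_image.1 hy
          exact hE.incomp h hh k hk fun e => hne (e ▸ rfl))
        _ _ (fun x hx => by
          obtain ⟨h, hh, rfl⟩ := List.mem_map.1 hx
          exact Finset.mem_image_of_mem _ (ha h hh))
        (fun x hx => by
          obtain ⟨h, hh, rfl⟩ := List.mem_map.1 hx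
          exact Finset.mem_image_of_mem _ (hb h hh))
        (by simpa using hlen) hπ
      have hab : ∀ (a b : List H), (∀ x ∈ a, x ∈ E) → (∀ x ∈ b, x ∈ E) →
          a.map π = b.map π → a = b := by
        intro a
        induction a with
        | nil => intro b _ _ h; simpa using h.symm
        | cons x a ih =>
          intro b ha hb h
          match b, hb, h with
          | [], _, h => simp at h
          | y :: b, hb, h =>
            simp only [List.map_cons, List.cons.injEq] at h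
            rw [hinjE (ha x (by simp)) (hb y (by simp)) h.1,
              ih b (fun z hz => ha z (List.mem_cons_of_mem _ hz))
                (fun z hz => hb z (List.mem_cons_of_mem _ hz)) h.2]
      rw [hab a b ha hb hmap])
    rwa [Finset.sum_image hφ.injOn] at hcode
  have h0q : 0 ≤ q := hp0.trans hq.le
  refine le_of_tendsto (tendsto_finsetSum E fun x _ => tendsto_tau S h0q hq1 (x : Γ))
    (Eventually.of_forall fun Λ => ?_)
  refine le_of_tendsto (((continuous_finsetSum E fun x _ =>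
    continuous_Pr (edgesIn (cnb S) Λ) (Conn 1 (x : Γ))).tendsto q).mono_left
    (nhdsWithin_le_nhds (s := Set.Iio q))) ?_
  filter_upwards [Ico_mem_nhdsLT hq] with t ht'
  exact (Finset.sum_le_sum fun x _ => tauS_le_tau S (hp0.trans ht'.1) (ht'.2.le.trans hq1) Λ _).trans
    (ht t ht'.1 ht'.2)

variable (π S) in
/-- The largest value over a fibre. -/
noncomputable def supW (p : ℝ) (f : Prd n) : ℝ :=
  ⨆ h : {h : H // π h = f}, tau S p ((h : H) : Γ)

theorem le_supW (h0 : 0 ≤ p) (h1 : p ≤ 1) {f : Prd n} {h : H} (hh : π h = f) :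
    tau S p (h : Γ) ≤ supW π S p f :=
  le_ciSup (f := fun h : {h : H // π h = f} => tau S p ((h : H) : Γ))
    ⟨1, by rintro _ ⟨k, rfl⟩; exact tau_le_one' S h0 h1 _⟩ ⟨h, hh⟩

theorem supW_nonneg (h0 : 0 ≤ p) (h1 : p ≤ 1) (f : Prd n) : 0 ≤ supW π S p f :=
  Real.iSup_nonneg fun _ => tau_nonneg S h0 h1 _

theorem weight_supW (h0 : 0 ≤ p) (h1 : p ≤ 1) (hcb : CodeBd π S p)
    {c : ℝ} (hc : ∀ v, ∃ h : H, π h = gv v ∧ c ≤ tau S p (h : Γ)) :
    Weight (supW π S p) c where
  nonneg := supW_nonneg h0 h1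
  mul_le x y := by
    rw [supW, Real.iSup_mul_of_nonneg (supW_nonneg h0 h1 y)]
    refine Real.iSup_le (fun h => ?_) (supW_nonneg h0 h1 _)
    rw [supW, Real.mul_iSup_of_nonneg (tau_nonneg S h0 h1 _)]
    refine Real.iSup_le (fun k => ?_) (supW_nonneg h0 h1 _)
    refine (tau_mul S h0 h1 _ _).trans ?_
    rw [← Subgroup.coe_mul]
    exact le_supW h0 h1 (by rw [_root_.map_mul, h.2, k.2])
  gen v := by
    obtain ⟨h, hh, hle⟩ := hc v
    exact hle.trans (le_supW h0 h1 hh)
  code E hp hi := by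
    classical
    set E' := E.filter fun f => ∃ h : H, π h = f
    have hE' : ∀ f ∈ E, f ∉ E' → supW π S p f = 0 := fun f hf hf' => by
      haveI : IsEmpty {h : H // π h = f} := ⟨fun h => hf' (Finset.mem_filter.2 ⟨hf, h.1, h.2⟩)⟩
      rw [supW, Real.iSup_of_isEmpty]
    rw [← Finset.sum_subset (Finset.filter_subset _ E : E' ⊆ E) hE']
    refine le_of_forall_pos_le_add fun ε hε => ?_
    set δ := ε / ((E'.card : ℝ) + 1)
    have hδ : 0 < δ := by positivity
    have hnear : ∀ f : {f // f ∈ E'}, ∃ h : H,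
        π h = f.1 ∧ supW π S p f.1 - δ < tau S p (h : Γ) := by
      rintro ⟨f, hf⟩
      obtain ⟨h, hh⟩ := (Finset.mem_filter.1 hf).2
      haveI : Nonempty {h : H // π h = f} := ⟨⟨h, hh⟩⟩
      obtain ⟨k, hk⟩ := exists_lt_of_lt_ciSup (sub_lt_self (supW π S p f) hδ)
      exact ⟨k, k.2, hk⟩
    choose kh hkh hlt using hnear
    have hinj : Function.Injective kh := fun a b he => Subtype.ext (by rw [← hkh a, ← hkh b, he])
    have hcode := hcb (E'.attach.image kh) ⟨fun a ha => by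
        obtain ⟨f, -, rfl⟩ := Finset.mem_image.1 ha
        show IsPos (π (kh f))
        rw [hkh]; exact hp f.1 (Finset.filter_subset _ _ f.2),
      fun a ha b hb hne => by
        obtain ⟨f, -, rfl⟩ := Finset.mem_image.1 ha
        obtain ⟨g, -, rfl⟩ := Finset.mem_image.1 hb
        show Incomp (π (kh f)) (π (kh g))
        rw [hkh, hkh]
        exact hi f.1 (Finset.filter_subset _ _ f.2) g.1 (Finset.filter_subset _ _ g.2)
          fun e => hne (congrArg kh (Subtype.ext e))⟩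
    rw [Finset.sum_image hinj.injOn] at hcode
    have hsum := Finset.sum_le_sum (s := E'.attach) fun f _ => (hlt f).le
    rw [Finset.sum_sub_distrib, Finset.sum_const, nsmul_eq_mul, Finset.card_attach,
      Finset.sum_attach E' (fun f => supW π S p f)] at hsum
    have : (E'.card : ℝ) * δ ≤ ε := by
      simp only [δ]
      rw [mul_div_assoc', div_le_iff₀ (by positivity)]
      nlinarith
    linarith

open Classical in
/-- Sums through the fibres. -/
theorem sum_le_supW (h0 : 0 ≤ p) (h1 : p ≤ 1) (U : Finset H) {N : ℕ}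
    (hN : ∀ f, (U.filter fun k => π k = f).card ≤ N) :
    ∑ k ∈ U, tau S p (k : Γ) ≤ (N : ℝ) * ∑ f ∈ U.image (fun k => π k), supW π S p f := by
  rw [← Finset.sum_fiberwise_of_maps_to (g := fun k => π k)
    (fun k hk => Finset.mem_image_of_mem _ hk), Finset.mul_sum]
  refine Finset.sum_le_sum fun f _ => ?_
  refine (Finset.sum_le_card_nsmul _ _ (supW π S p f) fun k hk =>
    le_supW h0 h1 (Finset.mem_filter.1 hk).2).trans ?_
  rw [nsmul_eq_mul]
  exact mul_le_mul_of_nonneg_right (Nat.cast_le.2 (hN f)) (supW_nonneg h0 h1 f)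

open Classical in
/-- Sums over finite subsets of the group through the subgroup. -/
theorem exists_reduce (hS : Subgroup.closure (S : Set Γ) = ⊤) (D : Dec H) (h0 : 0 ≤ p) (h1 : p ≤ 1)
    {c : ℝ} (hc : ∀ r ∈ D.R, c ≤ tau S p r⁻¹) :
    ∃ r0 : ℕ, ∀ L, ∀ V : Finset Γ, V ⊆ Ball S L → ∃ U : Finset H, U.card ≤ V.card ∧
      (∀ k ∈ U, (k : Γ) ∈ Ball S (L + r0)) ∧
      c * ∑ x ∈ V, tau S p x ≤ (D.R.card : ℝ) * ∑ k ∈ U, tau S p (k : Γ) := by
  obtain ⟨r0, hr0⟩ := exists_radius hS D.R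
  refine ⟨r0, fun L V hV => ⟨V.image D.hc, Finset.card_image_le, fun k hk => ?_, ?_⟩⟩
  · obtain ⟨x, hx, rfl⟩ := Finset.mem_image.1 hk
    rw [eq_mul_inv_of_mul_eq (D.eq x)]
    exact mul_mem_Ball S (hV hx) (inv_mem_Ball S (hr0 (D.mem x)))
  · have h' : ∀ x ∈ V, c * tau S p x ≤ tau S p (D.hc x : Γ) := fun x _ => by
      rw [eq_mul_inv_of_mul_eq (D.eq x), mul_comm]
      exact (mul_le_mul_of_nonneg_left (hc _ (D.mem x)) (tau_nonneg S h0 h1 x)).trans
        (tau_mul S h0 h1 _ _)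
    rw [Finset.mul_sum]
    refine (Finset.sum_le_sum h').trans ?_
    rw [Finset.sum_comp (fun k : H => tau S p (k : Γ)) D.hc, Finset.mul_sum]
    refine Finset.sum_le_sum fun k _ => ?_
    rw [nsmul_eq_mul]
    refine mul_le_mul_of_nonneg_right (Nat.cast_le.2 ?_) (tau_nonneg S h0 h1 _)
    refine Finset.card_le_card_of_injOn D.rc (fun x _ => D.mem x) fun x hx y hy hxy => ?_
    rw [← D.eq x, ← D.eq y, (Finset.mem_filter.1 hx).2, (Finset.mem_filter.1 hy).2, hxy]

open Classical in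
/-- Balls have polynomial mass. -/
theorem exists_crude (hS : Subgroup.closure (S : Set Γ) = ⊤) (D : Dec H)
    (hd : 0 < d) {C e : ℕ} (hg : KerGrowth π S C e)
    (h0 : 0 ≤ p) (h1 : p ≤ 1) (hcb : CodeBd π S p) {c : ℝ} (hc0 : 0 < c)
    (hc : ∀ v, ∃ h : H, π h = gv v ∧ c ≤ tau S p (h : Γ)) (hcr : ∀ r ∈ D.R, c ≤ tau S p r⁻¹) :
    ∃ Y : ℝ, 0 ≤ Y ∧ ∃ P : ℕ, ∀ L, ∀ V : Finset Γ, V ⊆ Ball S L →
      ∑ x ∈ V, tau S p x ≤ Y * ((L : ℝ) + 1) ^ P := by
  obtain ⟨r0, hr0⟩ := exists_reduce hS D h0 h1 hcr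
  obtain ⟨Cw, K, hCw, hlog⟩ := weight_le_log (n := n) hd hc0
  obtain ⟨b, hb⟩ : ∃ b, (gens S).card + 1 ≤ 2 ^ b := ⟨_, Nat.lt_two_pow_self.le⟩
  refine ⟨(D.R.card : ℝ) * (((C : ℝ) * (2 * (r0 : ℝ) + 3) ^ e) *
    (Cw * ((b : ℝ) * (r0 + 1) + 1) ^ K)) / c, by positivity, e + K, fun L V hV => ?_⟩
  obtain ⟨U, -, hUb, hUs⟩ := hr0 L V hV
  rw [div_mul_eq_mul_div, le_div_iff₀' hc0]
  refine hUs.trans ?_
  rw [mul_assoc (D.R.card : ℝ)]
  refine mul_le_mul_of_nonneg_left ((sum_le_supW h0 h1 U (N := C * (2 * (L + r0) + 1) ^ e)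
    fun f => card_fibre hg _ f fun k hk => ⟨(Finset.mem_filter.1 hk).2,
      hUb k (Finset.mem_filter.1 hk).1⟩).trans ?_) (Nat.cast_nonneg _)
  have hl : Nat.log 2 (U.image fun k => π k).card ≤ (L + r0) * b := by
    have hcard : (U.image fun k => π k).card ≤ 2 ^ ((L + r0) * b) := by
      refine Finset.card_image_le.trans ((Finset.card_le_card_of_injOn (fun k : H => (k : Γ))
        (fun k hk => hUb k hk) Subtype.val_injective.injOn).trans ((card_Ball_le S _).trans ?_))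
      rw [mul_comm, pow_mul]
      exact Nat.pow_le_pow_left hb _
    simpa [Nat.log_pow one_lt_two] using Nat.log_mono_right (b := 2) hcard
  have hl' : (Nat.log 2 (U.image fun k => π k).card : ℝ) ≤ ((L : ℝ) + r0) * b := by
    exact_mod_cast hl
  have L0 : (0 : ℝ) ≤ L := Nat.cast_nonneg _
  have r0' : (0 : ℝ) ≤ r0 := Nat.cast_nonneg _
  have b0 : (0 : ℝ) ≤ b := Nat.cast_nonneg _
  calc ((C * (2 * (L + r0) + 1) ^ e : ℕ) : ℝ) * ∑ f ∈ U.image (fun k => π k), supW π S p f
      ≤ ((C : ℝ) * ((2 * (r0 : ℝ) + 3) * ((L : ℝ) + 1)) ^ e) *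
        (Cw * (((b : ℝ) * (r0 + 1) + 1) * ((L : ℝ) + 1)) ^ K) := by
        refine mul_le_mul ?_ ((hlog _ (weight_supW h0 h1 hcb hc) _).trans
          (mul_le_mul_of_nonneg_left (pow_le_pow_left₀ (by positivity) ?_ _) hCw))
          (Finset.sum_nonneg fun f _ => supW_nonneg h0 h1 f) (by positivity)
        · push_cast
          refine mul_le_mul_of_nonneg_left (pow_le_pow_left₀ (by positivity) ?_ _) (Nat.cast_nonneg _)
          nlinarith
        · nlinarith [mul_nonneg (mul_nonneg b0 r0') L0]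
    _ = _ := by simp only [mul_pow, pow_add]; ring

end Vale.Agent.P165FreeProd.Ker
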