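import Vale.Agent.P165FreeProd.Ker.Group
import Vale.Agent.P165FreeProd.Z.Extend

/-!
# Prefix codes in a product of free groups
-/

namespace Vale.Agent.P165FreeProd.Ker

open FreeGroup

variable {d : ℕ} {n : Fin d → ℕ}

/-- Every coordinate starts and ends with a generator. -/
def IsPos (x : Prd n) : Prop := ∀ i, Pos (x i).toWord

theorem toWord_mul_pos {x y : Prd n} (hx : IsPos x) (hy : IsPos y) (i : Fin d) :
    ((x * y) i).toWord = (x i).toWord ++ (y i).toWord := by
  rw [Pi.mul_apply]
  refine toWord_mul_eq fun a ha b hb _ => ?_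
  obtain ⟨c, r, hr⟩ := (hx i).2
  obtain ⟨e, s, hs⟩ := (hy i).1
  rw [hr] at ha
  rw [hs] at hb
  simp at ha hb
  rw [← ha, ← hb]

theorem isPos_gv (v : Fin d → Bool) : IsPos (gv v : Prd n) := fun i => by
  rw [toWord_gv]; exact pos_singleton i _

theorem isPos_mul {x y : Prd n} (hx : IsPos x) (hy : IsPos y) : IsPos (x * y) := fun i => by
  rw [toWord_mul_pos hx hy]
  obtain ⟨⟨a, r, hr⟩, -⟩ := hx i
  obtain ⟨-, b, s, hs⟩ := hy i
  exact ⟨⟨a, r ++ (y i).toWord, by rw [hr]; rfl⟩,
    ⟨b, (x i).toWord ++ s, by rw [hs, List.append_assoc]⟩⟩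

theorem isPos_prod : ∀ (l : List (Prd n)), l ≠ [] → (∀ x ∈ l, IsPos x) → IsPos l.prod
  | [x], _, h => by simpa using h x (by simp)
  | x :: y :: l, _, h => by
    rw [List.prod_cons]
    exact isPos_mul (h x (by simp))
      (isPos_prod (y :: l) (by simp) fun z hz => h z (List.mem_cons_of_mem _ hz))

theorem size_mul_pos {x y : Prd n} (hx : IsPos x) (hy : IsPos y) :
    size (x * y) = size x + size y := by
  simp only [size]
  rw [← Finset.sum_add_distrib]
  exact Finset.sum_congr rfl fun i _ => by rw [toWord_mul_pos hx hy, List.length_append]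

theorem size_one : size (1 : Prd n) = 0 := by simp [size]

theorem size_prod_pos : ∀ (l : List (Prd n)), (∀ x ∈ l, IsPos x) →
    size l.prod = (l.map size).sum
  | [], _ => by simp [size_one]
  | [x], _ => by simp
  | x :: y :: l, h => by
    have hl := fun z hz => h z (List.mem_cons_of_mem _ hz)
    rw [List.prod_cons, size_mul_pos (h x (by simp)) (isPos_prod _ (by simp) hl),
      size_prod_pos (y :: l) hl]
    rfl

theorem le_size_of_isPos {x : Prd n} (hx : IsPos x) : d ≤ size x := by
  refine le_trans (by simp) (Finset.sum_le_sum (f := fun _ => 1) fun i _ => ?_)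
  obtain ⟨⟨a, r, hr⟩, -⟩ := hx i
  simp [hr]

theorem incomp_mul {x x' : Prd n} (h : Incomp x x') {y y' : Prd n} (hx : IsPos x) (hx' : IsPos x')
    (hy : IsPos y) (hy' : IsPos y') : Incomp (x * y) (x' * y') := by
  obtain ⟨i, h1, h2⟩ := h
  refine ⟨i, ?_⟩
  rw [toWord_mul_pos hx hy, toWord_mul_pos hx' hy']
  constructor <;> intro hp
  · rcases le_total (x i).toWord.length (x' i).toWord.length with hl | hl
    · exact h1 (List.prefix_of_prefix_length_le ((List.prefix_append _ _).trans hp)
        (List.prefix_append _ _) hl)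
    · exact h2 (List.prefix_of_prefix_length_le (List.prefix_append _ _)
        ((List.prefix_append _ _).trans hp) hl)
  · rcases le_total (x i).toWord.length (x' i).toWord.length with hl | hl
    · exact h1 (List.prefix_of_prefix_length_le (List.prefix_append _ _)
        ((List.prefix_append _ _).trans hp) hl)
    · exact h2 (List.prefix_of_prefix_length_le ((List.prefix_append _ _).trans hp)
        (List.prefix_append _ _) hl)

theorem incomp_left {x y y' : Prd n} (hx : IsPos x) (hy : IsPos y) (hy' : IsPos y')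
    (h : Incomp y y') : Incomp (x * y) (x * y') := by
  obtain ⟨i, h1, h2⟩ := h
  refine ⟨i, ?_⟩
  rw [toWord_mul_pos hx hy, toWord_mul_pos hx hy']
  exact ⟨fun hp => h1 ((List.prefix_append_right_inj _).1 hp),
    fun hp => h2 ((List.prefix_append_right_inj _).1 hp)⟩

theorem incomp_ne {x y : Prd n} (h : Incomp x y) : x ≠ y := fun e => by
  obtain ⟨i, h1, -⟩ := h
  exact h1 (e ▸ List.prefix_refl _)

/-- A prefix code, given by an indexed family. -/
structure IsCode {ι : Type*} (A : Finset ι) (g : ι → Prd n) : Prop where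
  pos : ∀ a ∈ A, IsPos (g a)
  incomp : ∀ a ∈ A, ∀ b ∈ A, a ≠ b → Incomp (g a) (g b)

theorem IsCode.mul {ι κ : Type*} {A : Finset ι} {B : Finset κ} {f : ι → Prd n} {g : κ → Prd n}
    (hf : IsCode A f) (hg : IsCode B g) : IsCode (A ×ˢ B) fun q => f q.1 * g q.2 := by
  refine ⟨fun q hq => ?_, ?_⟩
  · obtain ⟨h1, h2⟩ := Finset.mem_product.1 hq
    exact isPos_mul (hf.pos _ h1) (hg.pos _ h2)
  · rintro ⟨a, b⟩ hq ⟨a', b'⟩ hq' hne
    obtain ⟨ha, hb⟩ := Finset.mem_product.1 hq
    obtain ⟨ha', hb'⟩ := Finset.mem_product.1 hq'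
    by_cases h : a = a'
    · subst h
      exact incomp_left (hf.pos _ ha) (hg.pos _ hb) (hg.pos _ hb')
        (hg.incomp _ hb _ hb' fun e => hne (Prod.ext rfl e))
    · exact incomp_mul (hf.incomp _ ha _ ha' h) (hf.pos _ ha) (hf.pos _ ha') (hg.pos _ hb) (hg.pos _ hb')

theorem IsCode.pow {ι : Type*} {A : Finset ι} {g : ι → Prd n} (hg : IsCode A g) :
    ∀ j : ℕ, IsCode (Fintype.piFinset fun _ : Fin (j + 1) => A)
      fun f => (List.ofFn fun i => g (f i)).prod := by
  intro j
  induction j with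
  | zero =>
    refine ⟨fun f hf => ?_, fun f hf f' hf' hne => ?_⟩
    · simpa using hg.pos _ (Fintype.mem_piFinset.1 hf 0)
    · simpa using hg.incomp _ (Fintype.mem_piFinset.1 hf 0) _ (Fintype.mem_piFinset.1 hf' 0)
        fun e => hne (funext fun i => by rw [Fin.fin_one_eq_zero i]; exact e)
  | succ j ih =>
    have hf0 : ∀ {f : Fin (j + 1 + 1) → ι}, f ∈ (Fintype.piFinset fun _ => A) →
        f 0 ∈ A ∧ Fin.tail f ∈ Fintype.piFinset fun _ : Fin (j + 1) => A := fun hf =>
      ⟨Fintype.mem_piFinset.1 hf 0,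
        Fintype.mem_piFinset.2 fun i => Fintype.mem_piFinset.1 hf i.succ⟩
    have e : ∀ f : Fin (j + 1 + 1) → ι, (List.ofFn fun i => g (f i)).prod =
        g (f 0) * (List.ofFn fun i => g (Fin.tail f i)).prod := fun f => by
      rw [List.ofFn_succ, List.prod_cons]
      rfl
    have hm := hg.mul ih
    refine ⟨fun f hf => ?_, fun f hf f' hf' hne => ?_⟩
    · rw [e]
      exact hm.pos (f 0, Fin.tail f) (Finset.mem_product.2 (hf0 hf))
    · rw [e, e]
      refine hm.incomp (f 0, Fin.tail f) (Finset.mem_product.2 (hf0 hf)) (f' 0, Fin.tail f')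
        (Finset.mem_product.2 (hf0 hf')) fun h => hne ?_
      rw [← Fin.cons_self_tail f, ← Fin.cons_self_tail f', (Prod.mk.inj h).1, (Prod.mk.inj h).2]

/-- A first letter which does not cancel. -/
theorem toWord_front (g : Prd n) (i : Fin d) :
    ((gv (front g) * g : Prd n) i).toWord = ltr i (front g i) :: (g i).toWord := by
  rw [Pi.mul_apply, toWord_mul_eq, toWord_gv]
  · rfl
  intro a ha b hb h1
  rw [toWord_gv] at ha
  simp at ha
  subst ha
  obtain ⟨b1, b2⟩ := b
  cases b2
  · exfalso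
    simp only [ltr, front] at h1
    by_cases h : (g i).toWord.head? = some ((0 : Fin (n i + 2)), false)
    · rw [h] at hb
      simp at hb
      subst hb
      simp [h] at h1
    · simp [h] at h1
      exact h (h1 ▸ hb)
  · rfl

theorem isPos_front {g : Prd n} (hg : ∀ i, EndPos (g i).toWord) :
    IsPos (gv (front g) * g) := fun i => by
  rw [toWord_front]
  obtain ⟨b, s, hs⟩ := hg i
  exact ⟨⟨_, _, rfl⟩, ⟨b, ltr i (front g i) :: s, by rw [hs]; rfl⟩⟩

theorem incomp_front {x y : Prd n} (h : Incomp x y) :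
    Incomp (gv (front x) * x) (gv (front y) * y) := by
  obtain ⟨i, h1, h2⟩ := h
  refine ⟨i, ?_⟩
  rw [toWord_front, toWord_front]
  exact ⟨fun hp => h1 (List.cons_prefix_cons.1 hp).2, fun hp => h2 (List.cons_prefix_cons.1 hp).2⟩

end Vale.Agent.P165FreeProd.Ker
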